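import Vale.Agent.P134.H930.MISdef
import Vale.Agent.P134.H930.PC
import Vale.Agent.P134.H586.PB2

set_option linter.all false

/-! `StJJ` and `StPB1`. -/

namespace Vale.Agent.P134.H16

open Vale.Agent.P134 Vale.Agent.P134.SM Vale.Agent.P134.LI Vale.Agent.P134.H377
  Vale.Agent.P134.H930 MeasureTheory Filter Topology
open scoped ENNReal

theorem JJ : StJJ := by
  intro s3 K ε δ W L κ lam hN u hu hl x t hq ht
  have hq0 := H586.qq_nonneg hu hl x
  have hK := hN.cst.one_le
  have hδ4 := hN.δ4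
  have hε := hN.ε0
  have hδ := hN.δ0
  obtain ⟨hH, hKK⟩ := hN.cst.curv u hu hl x (by linarith)
  set T := dep ε κ u x + 1 with hT
  have hT0 : 0 ≤ T := (abs_nonneg t).trans ht
  have hs := s2pos
  -- `ε q e^{2√2 (T - 1)} ≤ 1`
  have hA : 0 < ε * (qq u x + κ ^ 2) := by
    have := hN.κ0
    positivity
  have h1 : Real.exp (2 * Real.sqrt 2 * (T - 1)) = 1 / (ε * (qq u x + κ ^ 2)) := by
    have e : 2 * Real.sqrt 2 * (T - 1) = Real.log (1 / (ε * (qq u x + κ ^ 2))) := by
      rw [hT]; unfold dep; field_simp; ring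
    rw [e, Real.exp_log (by positivity)]
  have h2 : ε * qq u x * Real.exp (2 * Real.sqrt 2 * (T - 1)) ≤ 1 := by
    rw [h1, mul_one_div, div_le_one hA]
    nlinarith [sq_nonneg κ]
  -- `(T + T²) e^{-√2 T} ≤ 1`
  have h3 : T + T ^ 2 ≤ Real.exp (Real.sqrt 2 * T) := by
    have h := Real.quadratic_le_exp_of_nonneg (x := Real.sqrt 2 * T) (by positivity)
    have e : (Real.sqrt 2 * T) ^ 2 = 2 * T ^ 2 := by rw [mul_pow, s2sq]
    rw [e] at h
    have := one_lt_s2
    nlinarith
  have h4 : (T + T ^ 2) ^ 2 ≤ Real.exp (2 * Real.sqrt 2 * (T - 1)) * Real.exp 4 := by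
    have h5 : (T + T ^ 2) ^ 2 ≤ Real.exp (Real.sqrt 2 * T) ^ 2 := by
      have : 0 ≤ T + T ^ 2 := by positivity
      gcongr
    refine h5.trans ?_
    rw [sq, ← Real.exp_add, ← Real.exp_add]
    apply Real.exp_le_exp.mpr
    have := s2_lt
    nlinarith
  have h6 : ((T + T ^ 2) * (K * qq u x)) ^ 2 ≤ 1 := by
    have e : ((T + T ^ 2) * (K * qq u x)) ^ 2 = (T + T ^ 2) ^ 2 * (K ^ 2 * (qq u x * qq u x)) := by
      ring
    rw [e]
    have a1 : qq u x * qq u x ≤ δ * qq u x := mul_le_mul_of_nonneg_right hq hq0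
    have a2 : (T + T ^ 2) ^ 2 * (K ^ 2 * (qq u x * qq u x))
        ≤ (Real.exp (2 * Real.sqrt 2 * (T - 1)) * Real.exp 4) * (K ^ 2 * (δ * qq u x)) := by
      gcongr
    refine a2.trans ?_
    have a3 : ε * ((Real.exp (2 * Real.sqrt 2 * (T - 1)) * Real.exp 4) * (K ^ 2 * (δ * qq u x)))
        = (ε * qq u x * Real.exp (2 * Real.sqrt 2 * (T - 1))) * (K ^ 2 * Real.exp 4 * δ) := by ring
    have a4 : (ε * qq u x * Real.exp (2 * Real.sqrt 2 * (T - 1))) * (K ^ 2 * Real.exp 4 * δ)
        ≤ 1 * (K ^ 2 * Real.exp 4 * δ) := by gcongr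
    have a5 := hN.δ2
    have a6 : 0 ≤ K ^ 2 * Real.exp 4 * δ := by positivity
    have a7 : ε * ((Real.exp (2 * Real.sqrt 2 * (T - 1)) * Real.exp 4) * (K ^ 2 * (δ * qq u x)))
        ≤ ε * 1 := by
      rw [a3]; nlinarith
    exact le_of_mul_le_mul_left a7 hε
  have h7 : (T + T ^ 2) * (K * qq u x) ≤ 1 := by
    have h0 : 0 ≤ (T + T ^ 2) * (K * qq u x) := by positivity
    nlinarith
  have e1 : |t * hh u x| ≤ T * (K * qq u x) := by
    rw [abs_mul]; exact mul_le_mul ht hH (abs_nonneg _) hT0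
  have e2 : |t ^ 2 * kk u x| ≤ T ^ 2 * (K * qq u x) := by
    rw [abs_mul, abs_pow]
    exact mul_le_mul (pow_le_pow_left₀ (abs_nonneg _) ht 2) hKK (abs_nonneg _) (by positivity)
  unfold jj
  have b1 := abs_le.mp e1
  have b2 := abs_le.mp e2
  rw [abs_le]
  constructor <;> nlinarith [b1.1, b1.2, b2.1, b2.2]

theorem PB2 : StPB2 := H586.PB2 JJ

private lemma measurableSet_Far (B : Set R3) (r : ℝ) : MeasurableSet {x : R3 | Far B r x} := by
  have : IsClosed {x : R3 | Far B r x} := by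
    have e : {x : R3 | Far B r x} = ⋂ b ∈ B, {x : R3 | r ≤ eno (x - b)} := by
      ext z; simp only [Far, Set.mem_setOf_eq, Set.mem_iInter]
    rw [e]
    exact isClosed_biInter fun b _ => isClosed_le continuous_const
      (continuous_eno.comp (continuous_id.sub continuous_const))
  exact this.measurableSet

private lemma measurable_Gw (lam : ℝ) : Measurable (Gw lam) := by
  unfold Gw esq
  fun_prop

theorem PB1 : StPB1 := by
  intro s3 K ε δ W L κ lam hN u B w om v hD
  have hL1 := hN.L1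
  have hs3 := hN.s3pos
  have hLW := hN.LW
  have hL0 : 0 ≤ L := by linarith
  have hK := hN.Kpos
  set A : ℝ := 64 * K * Real.exp (2 * Real.sqrt 2 * s3) * (1 + L) ^ 4 with hA
  have hA0 : 0 ≤ A := by positivity
  set Z : Set R3 := {x | Far B (W / 2) x ∧ ¬ Far B (3 * W) x} with hZ
  have hZm : MeasurableSet Z := (measurableSet_Far B (W / 2)).inter (measurableSet_Far B (3 * W)).compl
  set f : R3 → ℝ≥0∞ := fun x => ENNReal.ofReal (w (phi u x) * rr u x * qq u x * Gw lam x ^ 2) with hf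
  have hfm : Measurable f := by
    refine Measurable.ennreal_ofReal ?_
    exact (((hD.hw.measurable.comp (continuous_phi hD.hu hD.hl).measurable).mul
      (measurable_rr u)).mul (measurable_qq u)).mul ((measurable_Gw lam).pow_const 2)
  set S : Set (R3 × ℝ) := {z : R3 × ℝ | |z.2| ≤ L} \ MM s3 K L u with hS
  have hSm : MeasurableSet S :=
    (measurableSet_le measurable_snd.abs measurable_const).diff (measurableSet_MM hD.hu hD.hl)
  have hpt : ∀ z ∈ S, ENNReal.ofReal |h2 ε κ lam u w om v z|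
      ≤ (Z ×ˢ Set.Icc (-L) L).indicator (fun z => ENNReal.ofReal A * f z.1) z := by
    rintro ⟨x, t⟩ ⟨htL, hnM⟩
    have htL' : |t| ≤ L := htL
    by_cases h0 : h2 ε κ lam u w om v (x, t) = 0
    · rw [h0, abs_zero, ENNReal.ofReal_zero]; exact bot_le
    have h0' : w (phi u x) * rr u x * (Gw lam x * om x) ^ 2 *
        (jj u x t * prf ε κ u x t ^ 2 * v (xt u x t)) ≠ 0 := h0
    have nw : w (phi u x) ≠ 0 := by intro h; apply h0'; rw [h]; ring
    have nom : om x ≠ 0 := by intro h; apply h0'; rw [h]; ring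
    have np : prf ε κ u x t ≠ 0 := by intro h; apply h0'; rw [h]; ring
    have nv : v (xt u x t) ≠ 0 := by intro h; apply h0'; rw [h]; ring
    have hphi : |phi u x| ≤ s3 := by
      by_contra hc; push Not at hc; exact nw (hD.hws _ hc.le)
    have hfar : Far B (W / 4) x := by
      by_contra hc; exact nom (hD.hom1 x hc)
    have hq : qq u x ≤ δ := hD.hq x (by linarith) hfar
    have ht : |t| ≤ dep ε κ u x + 1 := by
      apply H586.zt_ne_zero (τ := dep ε κ u x) (t := t)
      intro h; apply np; unfold prf; rw [h, mul_zero]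
    have hjj : |jj u x t| ≤ 2 := JJ s3 K ε δ W L κ lam hN u hD.hu hD.hl x t hq ht
    have hxt : eno (xt u x t - x) ≤ L := (eno_xt_le u x t).trans htL'
    have hF1 : Far B (W / 2) x := by
      have h1 := Far.sub (hD.hv2 _ nv).1 hxt
      exact Far.mono h1 (by linarith)
    have hF2 : ¬ Far B (3 * W) x := by
      have h1 := not_far_sub (hD.hv2 _ nv).2 hxt
      intro h2
      exact h1 (Far.mono h2 (by linarith))
    have hmem : (x, t) ∈ Z ×ˢ Set.Icc (-L) L := ⟨⟨hF1, hF2⟩, abs_le.mp htL'⟩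
    rw [Set.indicator_of_mem hmem]
    simp only [hf]
    rw [← ENNReal.ofReal_mul hA0]
    apply ENNReal.ofReal_le_ofReal
    -- not in `MM`
    have hbig : 1 < 4 * K * (1 + L) ^ 4 * Real.exp (2 * Real.sqrt 2 * |t|) * qq u x := by
      by_contra hc
      push Not at hc
      exact hnM ⟨hphi, htL', hc⟩
    have hexp : Real.exp (-(2 * Real.sqrt 2 * |t|)) ≤ 4 * K * (1 + L) ^ 4 * qq u x := by
      have hp := Real.exp_pos (2 * Real.sqrt 2 * |t|)
      rw [Real.exp_neg, inv_le_iff_one_le_mul₀ hp]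
      nlinarith
    have b1 := g1_sq_shift (s := phi u x) (t := t) hphi
    have b2 := (H586.prf_sq_le ε κ u x t).trans b1
    have b3 := rr_le_one hD.hu hD.hl x
    have b4 := rr_nonneg u x
    have b5 := hD.hw0 (phi u x)
    have b6 := hD.hom0 x
    have b7 := hD.hv1 (xt u x t)
    have b8 : om x ^ 2 ≤ 1 := pow_le_one₀ b6.1 b6.2
    have b9 := H586.qq_nonneg hD.hu hD.hl x
    have e : |h2 ε κ lam u w om v (x, t)| = w (phi u x) * rr u x * (Gw lam x ^ 2 * om x ^ 2) *
        (|jj u x t| * prf ε κ u x t ^ 2 * |v (xt u x t)|) := by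
      show |w (phi u x) * rr u x * (Gw lam x * om x) ^ 2 *
        (jj u x t * prf ε κ u x t ^ 2 * v (xt u x t))| = _
      rw [abs_mul, abs_mul, abs_mul, abs_mul, abs_mul, abs_of_nonneg b5.1, abs_of_nonneg b4,
        abs_of_nonneg (sq_nonneg (Gw lam x * om x)), abs_of_nonneg (sq_nonneg (prf ε κ u x t)),
        mul_pow]
    rw [e]
    have c2 : Gw lam x ^ 2 * om x ^ 2 ≤ Gw lam x ^ 2 := by
      nlinarith [sq_nonneg (Gw lam x)]
    have c4 : |jj u x t| * prf ε κ u x t ^ 2 * |v (xt u x t)|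
        ≤ 2 * (8 * Real.exp (2 * Real.sqrt 2 * s3) * (4 * K * (1 + L) ^ 4 * qq u x)) * 1 := by
      have c5 : prf ε κ u x t ^ 2
          ≤ 8 * Real.exp (2 * Real.sqrt 2 * s3) * (4 * K * (1 + L) ^ 4 * qq u x) :=
        b2.trans (mul_le_mul_of_nonneg_left hexp (by positivity))
      gcongr
    have c0 : 0 ≤ w (phi u x) * rr u x := mul_nonneg b5.1 b4
    calc w (phi u x) * rr u x * (Gw lam x ^ 2 * om x ^ 2) *
        (|jj u x t| * prf ε κ u x t ^ 2 * |v (xt u x t)|)
        ≤ w (phi u x) * rr u x * Gw lam x ^ 2 *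
          (2 * (8 * Real.exp (2 * Real.sqrt 2 * s3) * (4 * K * (1 + L) ^ 4 * qq u x)) * 1) := by
          gcongr
      _ = A * (w (phi u x) * rr u x * qq u x * Gw lam x ^ 2) := by rw [hA]; ring
  have hPm : MeasurableSet (Z ×ˢ Set.Icc (-L) L) := hZm.prod measurableSet_Icc
  calc ∫⁻ z in S, ENNReal.ofReal |h2 ε κ lam u w om v z|
      ≤ ∫⁻ z in S, (Z ×ˢ Set.Icc (-L) L).indicator (fun z => ENNReal.ofReal A * f z.1) z :=
        setLIntegral_mono' hSm hpt
    _ ≤ ∫⁻ z, (Z ×ˢ Set.Icc (-L) L).indicator (fun z => ENNReal.ofReal A * f z.1) z :=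
        setLIntegral_le_lintegral _ _
    _ = ∫⁻ z in Z ×ˢ Set.Icc (-L) L, ENNReal.ofReal A * f z.1 := lintegral_indicator hPm _
    _ = ∫⁻ z in Z ×ˢ Set.Icc (-L) L, f z.1 * ENNReal.ofReal A := by
        refine lintegral_congr fun z => mul_comm _ _
    _ = (∫⁻ x in Z, f x) * ∫⁻ c in Set.Icc (-L) L, ENNReal.ofReal A :=
        setLIntegral_prod_mul Z (Set.Icc (-L) L) (g := fun _ => ENNReal.ofReal A) hfm measurable_const
    _ = QE lam W u B w * (ENNReal.ofReal A * ENNReal.ofReal (2 * L)) := by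
        rw [setLIntegral_const, Real.volume_Icc]
        congr 3
        ring
    _ ≤ _ := by
        rw [mul_comm, ← ENNReal.ofReal_mul hA0]
        refine mul_le_mul' (ENNReal.ofReal_le_ofReal ?_) le_rfl
        rw [hA]
        have e5 : 128 * K * Real.exp (2 * Real.sqrt 2 * s3) * (1 + L) ^ 5
            = 64 * K * Real.exp (2 * Real.sqrt 2 * s3) * (1 + L) ^ 4 * (2 * (1 + L)) := by ring
        rw [e5]
        gcongr
        linarith

end Vale.Agent.P134.H16
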