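import Mathlib

set_option linter.all false

/-! Angles of planar sectors seen through an azimuth: exact formula and quadratic upper bound.
`z` is the height function of the plane orthogonal to `n0 + p e1 + q e2`. -/

namespace Vale.Agent.P134.H16

open Real Set Filter Topology MeasureTheory intervalIntegral
open scoped InnerProductSpace

/-- height of the plane orthogonal to `n0 + p e1 + q e2` over the azimuth `w` -/
noncomputable def zf (p q w : ℝ) : ℝ := -(p * cos w + q * sin w)
/-- its derivative -/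
noncomputable def zd (p q w : ℝ) : ℝ := p * sin w - q * cos w
/-- the angular density -/
noncomputable def af (p q w : ℝ) : ℝ := sqrt (1 + (p ^ 2 + q ^ 2)) / (1 + zf p q w ^ 2)

lemma hasDerivAt_zf (p q w : ℝ) : HasDerivAt (zf p q) (zd p q w) w := by
  have h := (((hasDerivAt_cos w).const_mul p).add ((hasDerivAt_sin w).const_mul q)).neg
  refine HasDerivAt.congr_deriv h ?_
  unfold zd; ring

lemma hasDerivAt_zd (p q w : ℝ) : HasDerivAt (zd p q) (-(zf p q w)) w := by
  have h := (((hasDerivAt_sin w).const_mul p).sub ((hasDerivAt_cos w).const_mul q))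
  refine HasDerivAt.congr_deriv h ?_
  unfold zf; ring

lemma continuous_zf (p q : ℝ) : Continuous (zf p q) := by unfold zf; fun_prop
lemma continuous_zd (p q : ℝ) : Continuous (zd p q) := by unfold zd; fun_prop

lemma rho_pos (p q w : ℝ) : 0 < 1 + zf p q w ^ 2 := by positivity

lemma continuous_af (p q : ℝ) : Continuous (af p q) := by
  unfold af
  refine Continuous.div continuous_const ?_ (fun w => (rho_pos p q w).ne')
  exact continuous_const.add ((continuous_zf p q).pow 2)

lemma zz (p q w : ℝ) : zf p q w ^ 2 + zd p q w ^ 2 = p ^ 2 + q ^ 2 := by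
  unfold zf zd
  have := sin_sq_add_cos_sq w
  linear_combination (p ^ 2 + q ^ 2) * this

lemma k_sq (p q : ℝ) : sqrt (1 + (p ^ 2 + q ^ 2)) ^ 2 = 1 + (p ^ 2 + q ^ 2) :=
  sq_sqrt (by positivity)

/-- `z a` in terms of `z b`, `z' b`. -/
lemma z_back (p q a b : ℝ) :
    zf p q a = zf p q b * cos (b - a) - zd p q b * sin (b - a) := by
  have h : a = b - (b - a) := by ring
  have e1 : cos a = cos b * cos (b - a) + sin b * sin (b - a) := by
    rw [← cos_sub]; congr 1
  have e2 : sin a = sin b * cos (b - a) - cos b * sin (b - a) := by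
    rw [← sin_sub]; congr 1
  unfold zf zd
  rw [e1, e2]; ring

/-- the accumulated angle -/
noncomputable def Af (p q a b : ℝ) : ℝ := ∫ w in a..b, af p q w

lemma hasDerivAt_Af (p q a b : ℝ) : HasDerivAt (Af p q a) (af p q b) b :=
  intervalIntegral.integral_hasDerivAt_right ((continuous_af p q).intervalIntegrable _ _)
    ((continuous_af p q).stronglyMeasurableAtFilter _ _) (continuous_af p q).continuousAt

lemma continuous_Af (p q a : ℝ) : Continuous (Af p q a) :=
  continuous_iff_continuousAt.2 (fun b => (hasDerivAt_Af p q a b).continuousAt)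

lemma Af_self (p q a : ℝ) : Af p q a a = 0 := by simp [Af]

/-- The two components of `r b` relative to `r a`, rotated back by the accumulated angle. -/
noncomputable def G1 (p q a b : ℝ) : ℝ :=
  ((cos (b - a) + zf p q a * zf p q b) * cos (Af p q a b)
    + sqrt (1 + (p ^ 2 + q ^ 2)) * sin (b - a) * sin (Af p q a b)) / sqrt (1 + zf p q b ^ 2)
noncomputable def G2 (p q a b : ℝ) : ℝ :=
  (sqrt (1 + (p ^ 2 + q ^ 2)) * sin (b - a) * cos (Af p q a b)
    - (cos (b - a) + zf p q a * zf p q b) * sin (Af p q a b)) / sqrt (1 + zf p q b ^ 2)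

lemma hasDerivAt_sqrt_rho (p q b : ℝ) :
    HasDerivAt (fun b => sqrt (1 + zf p q b ^ 2))
      (zf p q b * zd p q b / sqrt (1 + zf p q b ^ 2)) b := by
  have h1 : HasDerivAt (fun b => 1 + zf p q b ^ 2) (2 * zf p q b * zd p q b) b := by
    have := ((hasDerivAt_zf p q b).pow 2).const_add 1
    refine HasDerivAt.congr_deriv this ?_
    simp
  have h2 := h1.sqrt (rho_pos p q b).ne'
  refine HasDerivAt.congr_deriv h2 ?_
  have := (sqrt_pos.2 (rho_pos p q b)).ne'
  field_simp

lemma hasDerivAt_cosd (a b : ℝ) : HasDerivAt (fun b => cos (b - a)) (-sin (b - a)) b := by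
  have := (hasDerivAt_cos (b - a)).comp b ((hasDerivAt_id b).sub_const a)
  simpa [Function.comp_def] using this

lemma hasDerivAt_sind (a b : ℝ) : HasDerivAt (fun b => sin (b - a)) (cos (b - a)) b := by
  have := (hasDerivAt_sin (b - a)).comp b ((hasDerivAt_id b).sub_const a)
  simpa [Function.comp_def] using this

lemma aux_div (X N r ρ y : ℝ) (hρ : ρ ≠ 0) (h : X * r = y * N) (hr : r = ρ ^ 2) :
    (X * ρ - N * (y / ρ)) / ρ ^ 2 = 0 := by
  rw [hr] at h
  have : X * ρ = N * (y / ρ) := by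
    field_simp
    linear_combination h
  rw [this]; simp

lemma hasDerivAt_G1 (p q a b : ℝ) : HasDerivAt (G1 p q a) 0 b := by
  have hr := (sqrt_pos.2 (rho_pos p q b)).ne'
  have hc : HasDerivAt (fun b => cos (Af p q a b)) (-sin (Af p q a b) * af p q b) b :=
    (hasDerivAt_Af p q a b).cos
  have hs : HasDerivAt (fun b => sin (Af p q a b)) (cos (Af p q a b) * af p q b) b :=
    (hasDerivAt_Af p q a b).sin
  have h1 : HasDerivAt (fun b => cos (b - a) + zf p q a * zf p q b)
      (-sin (b - a) + zf p q a * zd p q b) b :=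
    (hasDerivAt_cosd a b).add ((hasDerivAt_zf p q b).const_mul _)
  have h2 : HasDerivAt (fun b => sqrt (1 + (p ^ 2 + q ^ 2)) * sin (b - a))
      (sqrt (1 + (p ^ 2 + q ^ 2)) * cos (b - a)) b := (hasDerivAt_sind a b).const_mul _
  have h := ((h1.mul hc).add (h2.mul hs)).div (hasDerivAt_sqrt_rho p q b) hr
  refine HasDerivAt.congr_deriv h ?_
  refine aux_div _ _ (1 + zf p q b ^ 2) _ _ hr ?_ (sq_sqrt (rho_pos p q b).le).symm
  have hz := z_back p q a b
  have hk := k_sq p q
  have hzz := zz p q b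
  have hρ0 : (1 + zf p q b ^ 2) ≠ 0 := (rho_pos p q b).ne'
  unfold af
  show ((-sin (b - a) + zf p q a * zd p q b) * cos (Af p q a b)
      + (cos (b - a) + zf p q a * zf p q b) * (-sin (Af p q a b)
        * (sqrt (1 + (p ^ 2 + q ^ 2)) / (1 + zf p q b ^ 2)))
      + (sqrt (1 + (p ^ 2 + q ^ 2)) * cos (b - a) * sin (Af p q a b)
        + sqrt (1 + (p ^ 2 + q ^ 2)) * sin (b - a) * (cos (Af p q a b)
          * (sqrt (1 + (p ^ 2 + q ^ 2)) / (1 + zf p q b ^ 2))))) * (1 + zf p q b ^ 2)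
      = (zf p q b * zd p q b) * ((cos (b - a) + zf p q a * zf p q b) * cos (Af p q a b)
        + sqrt (1 + (p ^ 2 + q ^ 2)) * sin (b - a) * sin (Af p q a b))
  set k := sqrt (1 + (p ^ 2 + q ^ 2))
  set z := zf p q b
  set z' := zd p q b
  set za := zf p q a
  set S := sin (b - a)
  set C := cos (b - a)
  set cA := cos (Af p q a b)
  set sA := sin (Af p q a b)
  have e1 : (C + za * z) * (-sA * (k / (1 + z ^ 2))) * (1 + z ^ 2) = (C + za * z) * (-sA * k) := by
    field_simp
  have e2 : k * S * (cA * (k / (1 + z ^ 2))) * (1 + z ^ 2) = k ^ 2 * S * cA := by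
    field_simp
  rw [← hzz] at hk
  linear_combination e1 + e2 + (S * cA) * hk + (z' * cA - k * z * sA) * hz

lemma hasDerivAt_G2 (p q a b : ℝ) : HasDerivAt (G2 p q a) 0 b := by
  have hr := (sqrt_pos.2 (rho_pos p q b)).ne'
  have hc : HasDerivAt (fun b => cos (Af p q a b)) (-sin (Af p q a b) * af p q b) b :=
    (hasDerivAt_Af p q a b).cos
  have hs : HasDerivAt (fun b => sin (Af p q a b)) (cos (Af p q a b) * af p q b) b :=
    (hasDerivAt_Af p q a b).sin
  have h1 : HasDerivAt (fun b => cos (b - a) + zf p q a * zf p q b)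
      (-sin (b - a) + zf p q a * zd p q b) b :=
    (hasDerivAt_cosd a b).add ((hasDerivAt_zf p q b).const_mul _)
  have h2 : HasDerivAt (fun b => sqrt (1 + (p ^ 2 + q ^ 2)) * sin (b - a))
      (sqrt (1 + (p ^ 2 + q ^ 2)) * cos (b - a)) b := (hasDerivAt_sind a b).const_mul _
  have h := ((h2.mul hc).sub (h1.mul hs)).div (hasDerivAt_sqrt_rho p q b) hr
  refine HasDerivAt.congr_deriv h ?_
  refine aux_div _ _ (1 + zf p q b ^ 2) _ _ hr ?_ (sq_sqrt (rho_pos p q b).le).symm
  have hz := z_back p q a b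
  have hk := k_sq p q
  have hzz := zz p q b
  have hρ0 : (1 + zf p q b ^ 2) ≠ 0 := (rho_pos p q b).ne'
  unfold af
  show ((sqrt (1 + (p ^ 2 + q ^ 2)) * cos (b - a) * cos (Af p q a b)
        + sqrt (1 + (p ^ 2 + q ^ 2)) * sin (b - a) * (-sin (Af p q a b)
          * (sqrt (1 + (p ^ 2 + q ^ 2)) / (1 + zf p q b ^ 2)))) -
      ((-sin (b - a) + zf p q a * zd p q b) * sin (Af p q a b)
      + (cos (b - a) + zf p q a * zf p q b) * (cos (Af p q a b)
        * (sqrt (1 + (p ^ 2 + q ^ 2)) / (1 + zf p q b ^ 2))))) * (1 + zf p q b ^ 2)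
      = (zf p q b * zd p q b) * (sqrt (1 + (p ^ 2 + q ^ 2)) * sin (b - a) * cos (Af p q a b)
        - (cos (b - a) + zf p q a * zf p q b) * sin (Af p q a b))
  set k := sqrt (1 + (p ^ 2 + q ^ 2))
  set z := zf p q b
  set z' := zd p q b
  set za := zf p q a
  set S := sin (b - a)
  set C := cos (b - a)
  set cA := cos (Af p q a b)
  set sA := sin (Af p q a b)
  have e1 : (C + za * z) * (cA * (k / (1 + z ^ 2))) * (1 + z ^ 2) = (C + za * z) * (cA * k) := by
    field_simp
  have e2 : k * S * (-sA * (k / (1 + z ^ 2))) * (1 + z ^ 2) = -(k ^ 2 * S * sA) := by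
    field_simp
  rw [← hzz] at hk
  linear_combination e2 - e1 - (S * sA) * hk + (-z' * sA - k * z * cA) * hz

lemma G1_eq (p q a b : ℝ) : G1 p q a b = sqrt (1 + zf p q a ^ 2) := by
  have hd : Differentiable ℝ (G1 p q a) := fun x => (hasDerivAt_G1 p q a x).differentiableAt
  have h := is_const_of_deriv_eq_zero hd (fun x => (hasDerivAt_G1 p q a x).deriv) b a
  rw [h]
  unfold G1
  rw [Af_self, sub_self, cos_zero, sin_zero, mul_zero, add_zero, mul_one]
  have hp : 0 < sqrt (1 + zf p q a ^ 2) := sqrt_pos.2 (rho_pos p q a)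
  rw [div_eq_iff hp.ne', mul_self_sqrt (rho_pos p q a).le]; ring

lemma G2_eq (p q a b : ℝ) : G2 p q a b = 0 := by
  have hd : Differentiable ℝ (G2 p q a) := fun x => (hasDerivAt_G2 p q a x).differentiableAt
  have h := is_const_of_deriv_eq_zero hd (fun x => (hasDerivAt_G2 p q a x).deriv) b a
  rw [h]
  unfold G2
  rw [Af_self, sub_self, cos_zero, sin_zero]; simp

/-- exact formula: the cosine part -/
lemma cos_formula (p q a b : ℝ) :
    cos (b - a) + zf p q a * zf p q b
      = sqrt (1 + zf p q a ^ 2) * sqrt (1 + zf p q b ^ 2) * cos (Af p q a b) := by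
  have h1 := G1_eq p q a b
  have h2 := G2_eq p q a b
  unfold G1 at h1
  unfold G2 at h2
  have hr := (sqrt_pos.2 (rho_pos p q b)).ne'
  rw [div_eq_iff hr] at h1 h2
  have hcs := sin_sq_add_cos_sq (Af p q a b)
  linear_combination cos (Af p q a b) * h1 - sin (Af p q a b) * h2
    - (cos (b - a) + zf p q a * zf p q b) * hcs

/-- exact formula: the sine part -/
lemma sin_formula (p q a b : ℝ) :
    sqrt (1 + (p ^ 2 + q ^ 2)) * sin (b - a)
      = sqrt (1 + zf p q a ^ 2) * sqrt (1 + zf p q b ^ 2) * sin (Af p q a b) := by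
  have h1 := G1_eq p q a b
  have h2 := G2_eq p q a b
  unfold G1 at h1
  unfold G2 at h2
  have hr := (sqrt_pos.2 (rho_pos p q b)).ne'
  rw [div_eq_iff hr] at h1 h2
  have hcs := sin_sq_add_cos_sq (Af p q a b)
  linear_combination sin (Af p q a b) * h1 + cos (Af p q a b) * h2
    - (sqrt (1 + (p ^ 2 + q ^ 2)) * sin (b - a)) * hcs

lemma af_pos (p q w : ℝ) : 0 < af p q w :=
  div_pos (sqrt_pos.2 (by positivity)) (rho_pos p q w)

lemma Af_nonneg (p q : ℝ) {a b : ℝ} (h : a ≤ b) : 0 ≤ Af p q a b :=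
  intervalIntegral.integral_nonneg h (fun w _ => (af_pos p q w).le)

lemma Af_le_pi (p q : ℝ) {a b : ℝ} (h : a ≤ b) (hb : b ≤ a + π) : Af p q a b ≤ π := by
  by_contra hcon
  push Not at hcon
  -- pick a value in (π, 2π)
  have hmem : min (Af p q a b) (3 * π / 2) ∈ Icc (Af p q a a) (Af p q a b) := by
    refine ⟨?_, min_le_left _ _⟩
    rw [Af_self]
    exact le_min (Af_nonneg p q h) (by positivity)
  obtain ⟨c, hc, hAc⟩ := intermediate_value_Icc h (continuous_Af p q a).continuousOn hmem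
  have h1 : π < Af p q a c := by rw [hAc]; exact lt_min hcon (by linarith [pi_pos])
  have h2 : Af p q a c < 2 * π := by
    rw [hAc]; exact lt_of_le_of_lt (min_le_right _ _) (by linarith [pi_pos])
  have hs : sin (Af p q a c) < 0 := by
    have : sin (Af p q a c - π) > 0 := sin_pos_of_pos_of_lt_pi (by linarith) (by linarith)
    rw [sin_sub_pi] at this; linarith
  have hf := sin_formula p q a c
  have h3 : 0 ≤ sin (c - a) := sin_nonneg_of_nonneg_of_le_pi (by linarith [hc.1]) (by linarith [hc.2])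
  have h4 : 0 ≤ sqrt (1 + (p ^ 2 + q ^ 2)) * sin (c - a) := mul_nonneg (sqrt_nonneg _) h3
  have h5 : 0 < sqrt (1 + zf p q a ^ 2) * sqrt (1 + zf p q c ^ 2) :=
    mul_pos (sqrt_pos.2 (rho_pos p q a)) (sqrt_pos.2 (rho_pos p q c))
  rw [hf] at h4
  nlinarith

lemma sqrt_one_add_le {x : ℝ} (hx : 0 ≤ x) : sqrt (1 + x) ≤ 1 + x / 2 := by
  rw [sqrt_le_left (by positivity)]
  nlinarith [sq_nonneg x]

/-- pointwise quadratic bound of the density -/
lemma af_le (p q w : ℝ) :
    af p q w ≤ 1 + (zd p q w ^ 2 - zf p q w ^ 2) / 2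
      + (p ^ 2 + q ^ 2) ^ 2 * (1 + (p ^ 2 + q ^ 2)) / 2 := by
  have hx := zz p q w
  unfold af
  set x := p ^ 2 + q ^ 2 with hxdef
  set z := zf p q w
  set z' := zd p q w
  have hx0 : 0 ≤ x := by positivity
  rw [div_le_iff₀ (rho_pos p q w)]
  refine (sqrt_one_add_le hx0).trans ?_
  have hz1 : z ^ 2 ≤ x := by nlinarith [sq_nonneg z']
  have hz' : z' ^ 2 = x - z ^ 2 := by linarith
  rw [hz']
  set y := z ^ 2 with hy
  have hy0 : 0 ≤ y := by positivity
  nlinarith [mul_nonneg hy0 hx0, mul_nonneg (mul_nonneg hx0 hx0) hy0, mul_nonneg hy0 (sub_nonneg.2 hz1),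
    mul_nonneg (mul_nonneg hx0 hy0) (sub_nonneg.2 hz1), mul_nonneg (mul_nonneg hx0 hx0) (mul_nonneg hx0 hy0), mul_nonneg hx0 (sub_nonneg.2 hz1), mul_nonneg (mul_nonneg hx0 hx0) (sub_nonneg.2 hz1), mul_nonneg hy0 (mul_nonneg hy0 (sub_nonneg.2 hz1))]

lemma Af_le (p q : ℝ) {a b : ℝ} (h : a ≤ b) :
    Af p q a b ≤ (b - a) * (1 + (p ^ 2 + q ^ 2) ^ 2 * (1 + (p ^ 2 + q ^ 2)) / 2)
      + (zf p q b * zd p q b - zf p q a * zd p q a) / 2 := by
  set c := (p ^ 2 + q ^ 2) ^ 2 * (1 + (p ^ 2 + q ^ 2)) / 2 with hc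
  have hder : ∀ w, HasDerivAt (fun w => w * (1 + c) + zf p q w * zd p q w / 2)
      (1 + (zd p q w ^ 2 - zf p q w ^ 2) / 2 + c) w := by
    intro w
    have h1 := ((hasDerivAt_zf p q w).mul (hasDerivAt_zd p q w)).div_const 2
    have h2 := ((hasDerivAt_id w).mul_const (1 + c)).add h1
    refine HasDerivAt.congr_deriv h2 ?_
    ring
  have hcont : Continuous (fun w => 1 + (zd p q w ^ 2 - zf p q w ^ 2) / 2 + c) := by
    have h1 := continuous_zf p q
    have h2 := continuous_zd p q
    fun_prop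
  have h1 : Af p q a b ≤ ∫ w in a..b, (1 + (zd p q w ^ 2 - zf p q w ^ 2) / 2 + c) := by
    refine intervalIntegral.integral_mono_on h ((continuous_af p q).intervalIntegrable _ _)
      (hcont.intervalIntegrable _ _) (fun w _ => af_le p q w)
  rw [intervalIntegral.integral_eq_sub_of_hasDerivAt (fun w _ => hder w)
    (hcont.intervalIntegrable _ _)] at h1
  refine h1.trans (le_of_eq ?_)
  ring

/-- arccos form of the exact formula -/
lemma arccos_formula (p q : ℝ) {a b : ℝ} (h : a ≤ b) (hb : b ≤ a + π) :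
    arccos ((cos (b - a) + zf p q a * zf p q b)
      / (sqrt (1 + zf p q a ^ 2) * sqrt (1 + zf p q b ^ 2))) = Af p q a b := by
  have h5 : 0 < sqrt (1 + zf p q a ^ 2) * sqrt (1 + zf p q b ^ 2) :=
    mul_pos (sqrt_pos.2 (rho_pos p q a)) (sqrt_pos.2 (rho_pos p q b))
  rw [cos_formula, mul_div_cancel_left₀ _ h5.ne',
    arccos_cos (Af_nonneg p q h) (Af_le_pi p q h hb)]

end Vale.Agent.P134.H16
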