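import Vale.Agent.P134.H16.Fan

set_option linter.all false

/-! Angle excess at a vertex of a polyhedral level surface (link of an edge of the Kuhn
triangulation). -/

namespace Vale.Agent.P134.H16

open Real Finset
open scoped RealInnerProductSpace

/-- the fan inequality in azimuthal coordinates -/
theorem fan_coord (m : ℕ) (x y ζ p q : ℕ → ℝ) (η : ℝ) (hη : ∀ k, p k ^ 2 + q k ^ 2 ≤ η)
    (hx : x m = x 0) (hy : y m = y 0) (hp : p m = p 0) (hq : q m = q 0)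
    (hc : ∀ k, 0 < x k * y (k + 1) - y k * x (k + 1))
    (hz1 : ∀ k, ζ k = -(p k * x k + q k * y k))
    (hz2 : ∀ k, ζ (k + 1) = -(p k * x (k + 1) + q k * y (k + 1)))
    (hw : ∀ N : ℕ → ℤ, (∀ k, 0 ≤ (-1 : ℝ) ^ (N k) * y k) →
      (∀ k, y k = 0 → 0 < (-1 : ℝ) ^ (N k) * x k) →
      (∀ k, N k ≤ N (k + 1) ∧ N (k + 1) ≤ N k + 1) → N m = N 0 + 2) :
    ∑ k ∈ range m, arccos ((x k * x (k + 1) + y k * y (k + 1) + ζ k * ζ (k + 1)) /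
        (sqrt (x k ^ 2 + y k ^ 2 + ζ k ^ 2)
          * sqrt (x (k + 1) ^ 2 + y (k + 1) ^ 2 + ζ (k + 1) ^ 2)))
      ≤ 2 * π * (1 + η ^ 2 * (1 + η) / 2)
        - (∑ k ∈ range m, (p k * q (k + 1) - q k * p (k + 1))) / 2 := by
  obtain ⟨ω, hω, hpol⟩ := exists_lift x y hc
  set R : ℕ → ℝ := fun k => sqrt (x k ^ 2 + y k ^ 2) with hR
  have hRpos : ∀ k, 0 < R k := fun k => (hpol k).1
  have hxk : ∀ k, x k = R k * cos (ω k) := fun k => (hpol k).2.1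
  have hyk : ∀ k, y k = R k * sin (ω k) := fun k => (hpol k).2.2
  -- winding number
  have hN : ⌊ω m / π⌋ = ⌊ω 0 / π⌋ + 2 := by
    refine hw (fun k => ⌊ω k / π⌋) (fun k => ?_) (fun k hk => ?_)
      (fun k => floor_step (hω k).1 (hω k).2)
    · have h := (floor_facts (ω k)).1
      show 0 ≤ (-1 : ℝ) ^ ⌊ω k / π⌋ * y k
      rw [hyk k, show (-1 : ℝ) ^ ⌊ω k / π⌋ * (R k * sin (ω k))
        = R k * ((-1 : ℝ) ^ ⌊ω k / π⌋ * sin (ω k)) by ring]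
      exact mul_nonneg (hRpos k).le h
    · show 0 < (-1 : ℝ) ^ ⌊ω k / π⌋ * x k
      rw [hyk k] at hk
      have hs : sin (ω k) = 0 := by
        rcases mul_eq_zero.1 hk with h | h
        · exact absurd h (hRpos k).ne'
        · exact h
      have h := (floor_facts (ω k)).2 hs
      rw [hxk k, show (-1 : ℝ) ^ ⌊ω k / π⌋ * (R k * cos (ω k))
        = R k * ((-1 : ℝ) ^ ⌊ω k / π⌋ * cos (ω k)) by ring]
      exact mul_pos (hRpos k) h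
  have hRm : R m = R 0 := by simp only [hR, hx, hy]
  have hend : ω m = ω 0 + 2 * π := by
    refine closing hN ?_ ?_
    · have h1 := hxk m
      rw [hx, hxk 0, hRm] at h1
      exact (mul_left_cancel₀ (hRpos 0).ne' h1).symm
    · have h1 := hyk m
      rw [hy, hyk 0, hRm] at h1
      exact (mul_left_cancel₀ (hRpos 0).ne' h1).symm
  have hζ1 : ∀ k, ζ k = R k * zf (p k) (q k) (ω k) := by
    intro k; rw [hz1, zf]
    linear_combination (-p k) * hxk k - q k * hyk k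
  have hζ2 : ∀ k, ζ (k + 1) = R (k + 1) * zf (p k) (q k) (ω (k + 1)) := by
    intro k; rw [hz2, zf]
    linear_combination (-p k) * hxk (k + 1) - q k * hyk (k + 1)
  have hmatch : ∀ k < m, (p (k + 1) - p k) * cos (ω (k + 1))
      + (q (k + 1) - q k) * sin (ω (k + 1)) = 0 := by
    intro k _
    have h1 : R (k + 1) * zf (p k) (q k) (ω (k + 1))
        = R (k + 1) * zf (p (k + 1)) (q (k + 1)) (ω (k + 1)) := by
      rw [← hζ2, ← hζ1]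
    have h2 := mul_left_cancel₀ (hRpos (k + 1)).ne' h1
    simp only [zf] at h2
    linarith
  have hsum := fan_sum m p q ω η hη (fun k _ => (hω k).1.le) hend hp hq hmatch
  refine le_trans (le_of_eq ?_) hsum
  refine sum_congr rfl (fun k _ => ?_)
  rw [hζ1 k, hζ2 k, hxk k, hyk k, hxk (k + 1), hyk (k + 1)]
  exact sector_arccos (p k) (q k) (hRpos k) (hRpos (k + 1)) (hω k).1.le (hω k).2.le

/-! ### three dimensional vectors -/

abbrev E3 := EuclideanSpace ℝ (Fin 3)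

lemma in3 (u v : E3) : ⟪u, v⟫ = u 0 * v 0 + u 1 * v 1 + u 2 * v 2 := by
  rw [PiLp.inner_apply, Fin.sum_univ_three]
  simp only [RCLike.inner_apply, conj_trivial]
  ring

/-- determinant -/
def det3 (a b c : E3) : ℝ :=
  a 0 * (b 1 * c 2 - b 2 * c 1) - a 1 * (b 0 * c 2 - b 2 * c 0) + a 2 * (b 0 * c 1 - b 1 * c 0)

/-- cross product -/
noncomputable def crs (a b : E3) : E3 :=
  !₂[a 1 * b 2 - a 2 * b 1, a 2 * b 0 - a 0 * b 2, a 0 * b 1 - a 1 * b 0]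

@[simp] lemma crs_0 (a b : E3) : crs a b 0 = a 1 * b 2 - a 2 * b 1 := rfl
@[simp] lemma crs_1 (a b : E3) : crs a b 1 = a 2 * b 0 - a 0 * b 2 := rfl
@[simp] lemma crs_2 (a b : E3) : crs a b 2 = a 0 * b 1 - a 1 * b 0 := rfl

lemma norm_sq3 (u : E3) : ‖u‖ ^ 2 = u 0 ^ 2 + u 1 ^ 2 + u 2 ^ 2 := by
  rw [← real_inner_self_eq_norm_sq, in3]; ring

/-- a unit vector orthogonal to two given vectors -/
lemma exists_orth (n e : E3) : ∃ v : E3, ‖v‖ = 1 ∧ ⟪n, v⟫ = 0 ∧ ⟪e, v⟫ = 0 := by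
  have h1 : Module.finrank ℝ (Submodule.span ℝ ({n, e} : Set E3)) ≤ 2 := by
    have := finrank_span_le_card (R := ℝ) ({n, e} : Set E3)
    refine this.trans ?_
    have : ({n, e} : Set E3).toFinset = {n, e} := by
      ext; simp
    rw [Set.toFinset_insert, Set.toFinset_singleton]
    exact Finset.card_le_two
  have h2 : (Submodule.span ℝ ({n, e} : Set E3))ᗮ ≠ ⊥ := by
    intro h
    have h3 := Submodule.finrank_add_finrank_orthogonal (Submodule.span ℝ ({n, e} : Set E3))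
    rw [h, finrank_bot, finrank_euclideanSpace_fin] at h3
    omega
  obtain ⟨v, hv, hv0⟩ := Submodule.exists_mem_ne_zero_of_ne_bot h2
  have hn : ‖v‖ ≠ 0 := norm_ne_zero_iff.2 hv0
  rw [Submodule.mem_orthogonal] at hv
  refine ⟨(‖v‖⁻¹) • v, ?_, ?_, ?_⟩
  · rw [norm_smul, norm_inv, norm_norm, inv_mul_cancel₀ hn]
  · rw [inner_smul_right, hv n (Submodule.subset_span (by simp)), mul_zero]
  · rw [inner_smul_right, hv e (Submodule.subset_span (by simp)), mul_zero]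

/-- Gram identity for an orthonormal pair -/
lemma gram3 (a c t t' : E3) (ha : ⟪a, a⟫ = 1) (hc : ⟪c, c⟫ = 1) (hac : ⟪a, c⟫ = 0) :
    ⟪t, t'⟫ = det3 t a c * det3 t' a c + ⟪t, a⟫ * ⟪t', a⟫ + ⟪t, c⟫ * ⟪t', c⟫ := by
  have h : det3 t a c * det3 t' a c
      = ⟪t, t'⟫ * (⟪a, a⟫ * ⟪c, c⟫ - ⟪a, c⟫ ^ 2) - ⟪t, a⟫ * (⟪t', a⟫ * ⟪c, c⟫ - ⟪a, c⟫ * ⟪t', c⟫)
        + ⟪t, c⟫ * (⟪t', a⟫ * ⟪a, c⟫ - ⟪a, a⟫ * ⟪t', c⟫) := by
    simp only [in3, det3]; ring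
  rw [h, ha, hc, hac]; ring

lemma plucker3 (a c t t' : E3) (ha : ⟪a, a⟫ = 1) (hac : ⟪a, c⟫ = 0) :
    det3 t t' c = det3 t a c * ⟪t', a⟫ - ⟪t, a⟫ * det3 t' a c := by
  have h : det3 t t' c * ⟪a, a⟫ - det3 t t' a * ⟪a, c⟫
      = det3 t a c * ⟪t', a⟫ - ⟪t, a⟫ * det3 t' a c := by
    simp only [in3, det3]; ring
  rw [ha, hac] at h; linarith

/-- `t × t'` is parallel to `g` when `g` is orthogonal to both -/
lemma parallel3 (g t t' v e : E3) (h : ⟪g, t⟫ = 0) (h' : ⟪g, t'⟫ = 0) :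
    det3 t t' v * ⟪g, e⟫ = det3 t t' e * ⟪g, v⟫ := by
  have : det3 t t' v * ⟪g, e⟫ - det3 t t' e * ⟪g, v⟫
      = det3 t e v * ⟪g, t'⟫ - det3 t' e v * ⟪g, t⟫ := by
    simp only [in3, det3]; ring
  rw [h, h'] at this; linarith

lemma angle_eq3 (a c t t' : E3) (ha : ⟪a, a⟫ = 1) (hc : ⟪c, c⟫ = 1) (hac : ⟪a, c⟫ = 0) :
    InnerProductGeometry.angle t t'
      = arccos ((det3 t a c * det3 t' a c + ⟪t, a⟫ * ⟪t', a⟫ + ⟪t, c⟫ * ⟪t', c⟫) /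
        (sqrt (det3 t a c ^ 2 + ⟪t, a⟫ ^ 2 + ⟪t, c⟫ ^ 2)
          * sqrt (det3 t' a c ^ 2 + ⟪t', a⟫ ^ 2 + ⟪t', c⟫ ^ 2))) := by
  unfold InnerProductGeometry.angle
  have e1 : ∀ s : E3, ‖s‖ = sqrt (det3 s a c ^ 2 + ⟪s, a⟫ ^ 2 + ⟪s, c⟫ ^ 2) := by
    intro s
    rw [norm_eq_sqrt_real_inner, gram3 a c s s ha hc hac]
    congr 1; ring
  rw [gram3 a c t t' ha hc hac, e1 t, e1 t']

/-- The fan inequality in space: `n0` is any unit vector with `⟪g k, n0⟫ > 0`, `a` a unit vector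
orthogonal to it. -/
theorem fan_space (m : ℕ) (e a n0 : E3) (t g : ℕ → E3) (η : ℝ)
    (ha : ‖a‖ = 1) (hn : ‖n0‖ = 1) (han : ⟪a, n0⟫ = 0)
    (htm : t m = t 0) (hgm : g m = g 0)
    (hN : ∀ k, 0 < ⟪g k, n0⟫) (hge : ∀ k, 0 < ⟪g k, e⟫)
    (h1 : ∀ k, ⟪g k, t k⟫ = 0) (h2 : ∀ k, ⟪g k, t (k + 1)⟫ = 0)
    (hdet : ∀ k, 0 < det3 (t k) (t (k + 1)) e)
    (hη : ∀ k, (det3 (g k) a n0 ^ 2 + ⟪g k, a⟫ ^ 2) / ⟪g k, n0⟫ ^ 2 ≤ η)
    (hw : ∀ (x : ℕ → ℝ) (N : ℕ → ℤ), (∀ k, 0 ≤ (-1 : ℝ) ^ (N k) * ⟪t k, a⟫) →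
      (∀ k, ⟪t k, a⟫ = 0 → 0 < (-1 : ℝ) ^ (N k) * x k) →
      (∀ k, N k ≤ N (k + 1) ∧ N (k + 1) ≤ N k + 1) →
      (∀ k, 0 < x k * ⟪t (k + 1), a⟫ - ⟪t k, a⟫ * x (k + 1)) → N m = N 0 + 2) :
    ∑ k ∈ range m, InnerProductGeometry.angle (t k) (t (k + 1))
      ≤ 2 * π * (1 + η ^ 2 * (1 + η) / 2)
        - (∑ k ∈ range m, det3 (g k) (g (k + 1)) n0 / (⟪g k, n0⟫ * ⟪g (k + 1), n0⟫)) / 2 := by
  have ha' : ⟪a, a⟫ = 1 := by rw [real_inner_self_eq_norm_sq, ha]; norm_num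
  have hn' : ⟪n0, n0⟫ = 1 := by rw [real_inner_self_eq_norm_sq, hn]; norm_num
  have hcpos : ∀ k, 0 < det3 (t k) a n0 * ⟪t (k + 1), a⟫ - ⟪t k, a⟫ * det3 (t (k + 1)) a n0 := by
    intro k
    rw [← plucker3 a n0 (t k) (t (k + 1)) ha' han]
    have h := parallel3 (g k) (t k) (t (k + 1)) n0 e (h1 k) (h2 k)
    have h3 : 0 < det3 (t k) (t (k + 1)) n0 * ⟪g k, e⟫ := by
      rw [h]; exact mul_pos (hdet k) (hN k)
    exact pos_of_mul_pos_left h3 (hge k).le |> fun h => h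
  have hort : ∀ (u s : E3), ⟪u, s⟫ = 0 → 0 < ⟪u, n0⟫ →
      ⟪s, n0⟫ = -(det3 u a n0 / ⟪u, n0⟫ * det3 s a n0 + ⟪u, a⟫ / ⟪u, n0⟫ * ⟪s, a⟫) := by
    intro u s h hu
    rw [gram3 a n0 u s ha' hn' han] at h
    field_simp
    linarith
  have hmain := fan_coord m (fun k => det3 (t k) a n0) (fun k => ⟪t k, a⟫) (fun k => ⟪t k, n0⟫)
    (fun k => det3 (g k) a n0 / ⟪g k, n0⟫) (fun k => ⟪g k, a⟫ / ⟪g k, n0⟫) η
    (fun k => by
      have := hη k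
      rw [div_pow, div_pow, ← add_div]; exact this)
    (by simp only [htm]) (by simp only [htm]) (by simp only [hgm]) (by simp only [hgm])
    hcpos (fun k => hort (g k) (t k) (h1 k) (hN k)) (fun k => hort (g k) (t (k + 1)) (h2 k) (hN k))
    (fun N c1 c2 c3 => hw (fun k => det3 (t k) a n0) N c1 c2 c3 hcpos)
  have e1 : ∑ k ∈ range m, InnerProductGeometry.angle (t k) (t (k + 1))
      = ∑ k ∈ range m, arccos ((det3 (t k) a n0 * det3 (t (k + 1)) a n0 + ⟪t k, a⟫ * ⟪t (k + 1), a⟫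
        + ⟪t k, n0⟫ * ⟪t (k + 1), n0⟫) /
        (sqrt (det3 (t k) a n0 ^ 2 + ⟪t k, a⟫ ^ 2 + ⟪t k, n0⟫ ^ 2)
          * sqrt (det3 (t (k + 1)) a n0 ^ 2 + ⟪t (k + 1), a⟫ ^ 2 + ⟪t (k + 1), n0⟫ ^ 2))) :=
    sum_congr rfl (fun k _ => angle_eq3 a n0 (t k) (t (k + 1)) ha' hn' han)
  rw [e1]
  refine hmain.trans (le_of_eq ?_)
  congr 2
  refine sum_congr rfl (fun k _ => ?_)
  rw [plucker3 a n0 (g k) (g (k + 1)) ha' han]
  have h3 := (hN k).ne'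
  have h4 := (hN (k + 1)).ne'
  field_simp

end Vale.Agent.P134.H16
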