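import Vale.Agent.P134.H16.Exc

set_option linter.all false

/-! Angle excess: the bound with the signed area of the gradient polygon. -/

namespace Vale.Agent.P134.H16

open Real Finset
open scoped RealInnerProductSpace

lemma det3_sub_smul (b b' e : E3) (r r' : ℝ) :
    det3 (b - r • e) (b' - r' • e) e = det3 b b' e := by
  simp only [det3, PiLp.sub_apply, PiLp.smul_apply, smul_eq_mul]; ring

lemma det3_sub_left (g h a n : E3) (c : ℝ) (hh : h = c • n) :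
    det3 (g - h) a n = det3 g a n := by
  subst hh
  simp only [det3, PiLp.sub_apply, PiLp.smul_apply, smul_eq_mul]; ring

lemma aux_cross_abs {X Y X' Y' M : ℝ} (h1 : X ^ 2 + Y ^ 2 ≤ M) (h2 : X' ^ 2 + Y' ^ 2 ≤ M) :
    |X * Y' - Y * X'| ≤ M := by
  rw [abs_le]
  constructor
  · nlinarith [sq_nonneg (X + Y'), sq_nonneg (Y - X')]
  · nlinarith [sq_nonneg (X - Y'), sq_nonneg (Y + X')]

lemma aux_term {c P Q ε M : ℝ} (hε0 : 0 ≤ ε) (hε8 : ε ≤ 1 / 8) (hM0 : 0 ≤ M) (hc : |c| ≤ M)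
    (a1 : 1 - 3 * ε ≤ P) (a2 : 1 - 3 * ε ≤ Q) (b1 : P ≤ 1 + 3 * ε) (b2 : Q ≤ 1 + 3 * ε) :
    c - 19 * ε * M ≤ c / (P * Q) := by
  have hP : 0 < P := by linarith
  have hQ : 0 < Q := by linarith
  have hPQ0 : (1 - 3 * ε) * (1 - 3 * ε) ≤ P * Q := mul_le_mul a1 a2 (by linarith) hP.le
  have hPQ2 : P * Q ≤ (1 + 3 * ε) * (1 + 3 * ε) := mul_le_mul b1 b2 hQ.le (by linarith)
  have hPQl : 25 / 64 ≤ P * Q := by nlinarith
  have hPQ : |1 - P * Q| ≤ (57 / 8) * ε := by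
    rw [abs_le]; constructor <;> nlinarith
  rw [le_div_iff₀ (mul_pos hP hQ)]
  have h1 : -(M * ((57 / 8) * ε)) ≤ c * (1 - P * Q) := by
    have : |c * (1 - P * Q)| ≤ M * ((57 / 8) * ε) := by
      rw [abs_mul]
      exact mul_le_mul hc hPQ (abs_nonneg _) hM0
    exact (abs_le.1 this).1
  have h2 : 0 ≤ ε * M := mul_nonneg hε0 hM0
  have h3 : (25 / 64) * (ε * M) ≤ (P * Q) * (ε * M) := mul_le_mul_of_nonneg_right hPQl h2
  have e : (c - 19 * ε * M) * (P * Q) = c - c * (1 - P * Q) - 19 * ((P * Q) * (ε * M)) := by ring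
  rw [e]
  linarith

lemma aux_quartic {M' M ε η : ℝ} (hε0 : 0 ≤ ε) (hε8 : ε ≤ 1 / 8) (hM0 : 0 ≤ M) (hM'0 : 0 ≤ M')
    (hM'1 : M' ≤ M) (hM'2 : M' ≤ 4 * ε ^ 2) (hηdef : η = M' * (64 / 25)) :
    2 * π * (η ^ 2 * (1 + η) / 2) ≤ 13 * ε * M := by
  have hpi := pi_pos
  have hpi3 : π < 3.15 := pi_lt_d2
  have hη0 : 0 ≤ η := by rw [hηdef]; positivity
  have h4ε : 4 * ε ^ 2 ≤ ε / 2 := by nlinarith
  have hη1 : η ≤ 4 / 25 := by rw [hηdef]; linarith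
  have h0 : M' ^ 2 ≤ ε / 2 * M := by
    have h2 : M' * M' ≤ M' * (4 * ε ^ 2) := mul_le_mul_of_nonneg_left hM'2 hM'0
    have h3 : M' * (4 * ε ^ 2) ≤ M * (4 * ε ^ 2) := mul_le_mul_of_nonneg_right hM'1 (by positivity)
    have h5 : M * (4 * ε ^ 2) ≤ M * (ε / 2) := mul_le_mul_of_nonneg_left h4ε hM0
    calc M' ^ 2 = M' * M' := sq M'
      _ ≤ M * (ε / 2) := h2.trans (h3.trans h5)
      _ = ε / 2 * M := by ring
  have h1 : η ^ 2 ≤ (64 / 25) ^ 2 * (ε / 2 * M) := by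
    rw [hηdef, mul_pow, mul_comm]
    exact mul_le_mul_of_nonneg_left h0 (by norm_num)
  have h3 : 0 ≤ ε * M := mul_nonneg hε0 hM0
  have h2 : η ^ 2 * (1 + η) ≤ (64 / 25) ^ 2 * (ε / 2 * M) * (29 / 25) :=
    mul_le_mul h1 (by linarith) (by linarith) (by positivity)
  have h5 : η ^ 2 * (1 + η) ≤ 4 * (ε * M) := by linarith
  have h4 : 2 * π * (η ^ 2 * (1 + η) / 2) = π * (η ^ 2 * (1 + η)) := by ring
  rw [h4]
  calc π * (η ^ 2 * (1 + η)) ≤ π * (4 * (ε * M)) := mul_le_mul_of_nonneg_left h5 hpi.le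
    _ ≤ 3.15 * (4 * (ε * M)) := mul_le_mul_of_nonneg_right hpi3.le (by positivity)
    _ ≤ _ := by linarith

theorem exc_core (m : ℕ) (hm6 : m ≤ 6) (e n : E3) (b g : ℕ → E3) (ε M σ D : ℝ)
    (hb : b m = b 0) (hg : g m = g 0)
    (hn : ‖n‖ = 1) (hε : ∀ k, ‖g k - n‖ ≤ ε) (hε8 : ε ≤ 1 / 8)
    (hM : ∀ k, ‖g k - g 0‖ ^ 2 ≤ M) (he : ‖e‖ ≤ 2)
    (hge : ∀ k, ⟪g k, e⟫ = D) (hD : 0 < D)
    (hgb : ∀ k, ⟪g (k + 1), b (k + 1)⟫ = ⟪g k, b (k + 1)⟫)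
    (hdet : ∀ k, 0 < det3 (b k) (b (k + 1)) e)
    (hw : ∀ a : E3, ⟪e, a⟫ = 0 → ∀ (x : ℕ → ℝ) (N : ℕ → ℤ),
      (∀ k, 0 ≤ (-1 : ℝ) ^ (N k) * ⟪b k, a⟫) →
      (∀ k, ⟪b k, a⟫ = 0 → 0 < (-1 : ℝ) ^ (N k) * x k) →
      (∀ k, N k ≤ N (k + 1) ∧ N (k + 1) ≤ N k + 1) →
      (∀ k, 0 < x k * ⟪b (k + 1), a⟫ - ⟪b k, a⟫ * x (k + 1)) → N m = N 0 + 2)
    (hσ : ∀ v, ∑ k ∈ range m, det3 (g k) (g (k + 1)) v = σ * ⟪e, v⟫) :
    ∑ k ∈ range m, InnerProductGeometry.angle (b k - (⟪g k, b k⟫ / D) • e)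
        (b (k + 1) - (⟪g (k + 1), b (k + 1)⟫ / D) • e)
      ≤ 2 * π + max (-σ) 0 / 2 * (|⟪e, n⟫| + 4 * ε) + 70 * ε * M := by
  have hε0 : 0 ≤ ε := le_trans (norm_nonneg _) (hε 0)
  have hM0 : 0 ≤ M := le_trans (by positivity) (hM 0)
  -- norms
  have hg0l : 1 - ε ≤ ‖g 0‖ := by
    have h1 : ‖n‖ ≤ ‖g 0‖ + ‖g 0 - n‖ := by
      have := norm_sub_norm_le n (g 0)
      rw [norm_sub_rev] at this; linarith
    have := hε 0
    linarith
  have hg0u : ‖g 0‖ ≤ 1 + ε := by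
    have := norm_sub_norm_le (g 0) n
    have := hε 0
    linarith
  have hg0p : 0 < ‖g 0‖ := by linarith
  set n0 : E3 := (‖g 0‖⁻¹) • g 0 with hn0
  have hn0n : ‖n0‖ = 1 := by rw [hn0, norm_smul, norm_inv, norm_norm, inv_mul_cancel₀ hg0p.ne']
  have hg0 : g 0 = ‖g 0‖ • n0 := by rw [hn0, smul_smul, mul_inv_cancel₀ hg0p.ne', one_smul]
  have hn0n' : ⟪n0, n0⟫ = 1 := by rw [real_inner_self_eq_norm_sq, hn0n]; norm_num
  obtain ⟨a, ha, hna, hea⟩ := exists_orth n0 e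
  have ha' : ⟪a, a⟫ = 1 := by rw [real_inner_self_eq_norm_sq, ha]; norm_num
  have han : ⟪a, n0⟫ = 0 := by rw [real_inner_comm]; exact hna
  have hd2 : ∀ k, ‖g k - g 0‖ ≤ 2 * ε := by
    intro k
    have h1 : g k - g 0 = (g k - n) - (g 0 - n) := by abel
    rw [h1]
    refine (norm_sub_le _ _).trans ?_
    linarith [hε k, hε 0]
  -- N_k
  have hNeq : ∀ k, ⟪g k, n0⟫ = ‖g 0‖ + ⟪g k - g 0, n0⟫ := by
    intro k
    have h1 : ⟪g 0, n0⟫ = ‖g 0‖ := by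
      conv_lhs => rw [hg0]
      rw [inner_smul_left, hn0n']; simp
    rw [inner_sub_left, h1]; ring
  have hNab : ∀ k, |⟪g k - g 0, n0⟫| ≤ 2 * ε := by
    intro k
    refine (abs_real_inner_le_norm _ _).trans ?_
    rw [hn0n, mul_one]; exact hd2 k
  have hNl : ∀ k, 1 - 3 * ε ≤ ⟪g k, n0⟫ := by
    intro k
    have := (abs_le.1 (hNab k)).1
    rw [hNeq]; linarith
  have hNu : ∀ k, ⟪g k, n0⟫ ≤ 1 + 3 * ε := by
    intro k
    have := (abs_le.1 (hNab k)).2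
    rw [hNeq]; linarith
  have hNpos : ∀ k, 0 < ⟪g k, n0⟫ := fun k => by linarith [hNl k]
  -- tangential parts
  set M' := min M (4 * ε ^ 2) with hM'
  have hM'0 : 0 ≤ M' := le_min hM0 (by positivity)
  have hM'1 : M' ≤ M := min_le_left _ _
  have hM'2 : M' ≤ 4 * ε ^ 2 := min_le_right _ _
  have hdM' : ∀ k, ‖g k - g 0‖ ^ 2 ≤ M' := by
    intro k
    refine le_min (hM k) ?_
    have := hd2 k
    have h0 := norm_nonneg (g k - g 0)
    nlinarith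
  have htan : ∀ k, det3 (g k) a n0 ^ 2 + ⟪g k, a⟫ ^ 2 ≤ M' := by
    intro k
    have h1 : det3 (g k) a n0 = det3 (g k - g 0) a n0 := (det3_sub_left _ _ _ _ _ hg0).symm
    have h2 : ⟪g k, a⟫ = ⟪g k - g 0, a⟫ := by
      rw [inner_sub_left]
      have : ⟪g 0, a⟫ = 0 := by rw [hg0, inner_smul_left, hna]; simp
      rw [this, sub_zero]
    have h3 := gram3 a n0 (g k - g 0) (g k - g 0) ha' hn0n' han
    rw [real_inner_self_eq_norm_sq] at h3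
    rw [h1, h2]
    nlinarith [hdM' k, sq_nonneg ⟪g k - g 0, n0⟫]
  set η := M' * (64 / 25) with hηdef
  have hη : ∀ k, (det3 (g k) a n0 ^ 2 + ⟪g k, a⟫ ^ 2) / ⟪g k, n0⟫ ^ 2 ≤ η := by
    intro k
    rw [div_le_iff₀ (by have := hNpos k; positivity)]
    have h1 : (5 / 8 : ℝ) ≤ ⟪g k, n0⟫ := by linarith [hNl k]
    have h2 : (25 / 64 : ℝ) ≤ ⟪g k, n0⟫ ^ 2 := by nlinarith
    have h3 := htan k
    rw [hηdef]
    nlinarith
  -- the spokes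
  set t : ℕ → E3 := fun k => b k - (⟪g k, b k⟫ / D) • e with ht
  have ht1 : ∀ k, ⟪g k, t k⟫ = 0 := by
    intro k
    simp only [ht]
    rw [inner_sub_right, inner_smul_right, hge, div_mul_cancel₀ _ hD.ne', sub_self]
  have ht2 : ∀ k, ⟪g k, t (k + 1)⟫ = 0 := by
    intro k
    simp only [ht]
    rw [inner_sub_right, inner_smul_right, hge, div_mul_cancel₀ _ hD.ne', hgb, sub_self]
  have hta : ∀ k, ⟪t k, a⟫ = ⟪b k, a⟫ := by
    intro k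
    simp only [ht]
    rw [inner_sub_left, inner_smul_left, hea]; simp
  have hmain := fan_space m e a n0 t g η ha hn0n han (by simp only [ht, hb, hg]) hg hNpos
    (fun k => by rw [hge]; exact hD) ht1 ht2
    (fun k => by simp only [ht]; rw [det3_sub_smul]; exact hdet k) hη
    (fun x N c1 c2 c3 c4 => hw a hea x N (fun k => by rw [← hta]; exact c1 k)
      (fun k hk => c2 k (by rw [hta]; exact hk)) c3
      (fun k => by rw [← hta, ← hta]; exact c4 k))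
  refine hmain.trans ?_
  -- the quartic error
  have hq := aux_quartic hε0 hε8 hM0 hM'0 hM'1 hM'2 hηdef
  -- the cross terms
  have hcr : ∀ k, |det3 (g k) (g (k + 1)) n0| ≤ M' := by
    intro k
    rw [plucker3 a n0 (g k) (g (k + 1)) ha' han]
    exact aux_cross_abs (htan k) (htan (k + 1))
  have hterm : ∀ k, det3 (g k) (g (k + 1)) n0 - 19 * ε * M
      ≤ det3 (g k) (g (k + 1)) n0 / (⟪g k, n0⟫ * ⟪g (k + 1), n0⟫) := by
    intro k
    exact aux_term hε0 hε8 hM0 ((hcr k).trans hM'1) (hNl k) (hNl (k + 1)) (hNu k) (hNu (k + 1))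
  have hsum : σ * ⟪e, n0⟫ - 114 * ε * M
      ≤ ∑ k ∈ range m, det3 (g k) (g (k + 1)) n0 / (⟪g k, n0⟫ * ⟪g (k + 1), n0⟫) := by
    have h1 : ∑ k ∈ range m, (det3 (g k) (g (k + 1)) n0 - 19 * ε * M)
      ≤ ∑ k ∈ range m, det3 (g k) (g (k + 1)) n0 / (⟪g k, n0⟫ * ⟪g (k + 1), n0⟫) :=
      sum_le_sum (fun k _ => hterm k)
    rw [sum_sub_distrib, hσ, sum_const, card_range, nsmul_eq_mul] at h1
    have h2 : (m : ℝ) ≤ 6 := by exact_mod_cast hm6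
    have h3 : 0 ≤ ε * M := mul_nonneg hε0 hM0
    nlinarith
  -- the main term
  have hen0 : ⟪e, n0⟫ = D / ‖g 0‖ := by
    rw [hn0, inner_smul_right, real_inner_comm, hge]; field_simp
  have hen0pos : 0 < ⟪e, n0⟫ := by rw [hen0]; positivity
  have hn0n2 : ‖n0 - n‖ ≤ 2 * ε := by
    have h1 : n0 - n = (1 - ‖g 0‖) • n0 + (g 0 - n) := by
      conv_rhs => rw [hg0]
      rw [norm_smul, hn0n, norm_norm, mul_one, sub_smul, one_smul]; abel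
    rw [h1]
    refine (norm_add_le _ _).trans ?_
    rw [norm_smul, hn0n, mul_one, Real.norm_eq_abs]
    have : |1 - ‖g 0‖| ≤ ε := by rw [abs_le]; constructor <;> linarith
    linarith [hε 0]
  have hen : ⟪e, n0⟫ ≤ |⟪e, n⟫| + 4 * ε := by
    have h1 : ⟪e, n0⟫ = ⟪e, n⟫ + ⟪e, n0 - n⟫ := by rw [inner_sub_right]; ring
    have h2 : |⟪e, n0 - n⟫| ≤ 2 * (2 * ε) := by
      refine (abs_real_inner_le_norm _ _).trans ?_
      exact mul_le_mul he hn0n2 (norm_nonneg _) (by norm_num)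
    have h3 := (abs_le.1 h2).2
    have h4 := le_abs_self ⟪e, n⟫
    linarith
  have hmainterm : -(σ * ⟪e, n0⟫) / 2 ≤ max (-σ) 0 / 2 * (|⟪e, n⟫| + 4 * ε) := by
    have h1 : -σ * ⟪e, n0⟫ ≤ max (-σ) 0 * ⟪e, n0⟫ :=
      mul_le_mul_of_nonneg_right (le_max_left _ _) hen0pos.le
    have h2 : max (-σ) 0 * ⟪e, n0⟫ ≤ max (-σ) 0 * (|⟪e, n⟫| + 4 * ε) :=
      mul_le_mul_of_nonneg_left hen (le_max_right _ _)
    linarith
  have hexp : 2 * π * (1 + η ^ 2 * (1 + η) / 2) = 2 * π + 2 * π * (η ^ 2 * (1 + η) / 2) := by ring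
  rw [hexp]
  linarith

end Vale.Agent.P134.H16
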