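import Vale.Agent.P134.H16.Exc2

set_option linter.all false

/-! Angle excess at an edge of the Kuhn triangulation in terms of second differences. -/

namespace Vale.Agent.P134.H16

open Real Finset
open scoped RealInnerProductSpace

/-- data of the link of an edge `e`: link vertices `b k`, gradients `g k` of the tetrahedra -/
structure Link (m : ℕ) (α s D : ℝ) (β : ℕ → ℝ) (e : E3) (b g : ℕ → E3) : Prop where
  type : (m = 6 ∧ α = 1) ∨ (m = 4 ∧ α = 0)
  b_per : ∀ k, b (k + m) = b k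
  g_per : ∀ k, g (k + m) = g k
  β_per : ∀ k, β (k + m) = β k
  rel : ∀ k, b k + b (k + 2) = α • b (k + 1) + β (k + 1) • e
  det : ∀ k, det3 (b k) (b (k + 1)) e = s
  ge : ∀ k, ⟪g k, e⟫ = D
  gb : ∀ k, ⟪g (k + 1), b (k + 1)⟫ = ⟪g k, b (k + 1)⟫
  crs2 : ∀ k, ‖crs e (b k)‖ ^ 2 ≤ 2
  e2 : ‖e‖ ≤ 2

/-- second difference at the `k+1`-st link vertex -/
noncomputable def sdif (α D : ℝ) (β : ℕ → ℝ) (b g : ℕ → E3) (k : ℕ) : ℝ :=
  ⟪g k, b k⟫ + ⟪g (k + 2), b (k + 2)⟫ - α * ⟪g (k + 1), b (k + 1)⟫ - β (k + 1) * D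

lemma cramer3 (v e b1 b2 : E3) : det3 b1 b2 e • v
    = ⟪v, e⟫ • crs b1 b2 + ⟪v, b1⟫ • crs b2 e + ⟪v, b2⟫ • crs e b1 := by
  ext i
  simp only [in3, det3, PiLp.add_apply, PiLp.smul_apply, smul_eq_mul]
  fin_cases i
  · show _ * v 0 = _ * crs b1 b2 0 + _ * crs b2 e 0 + _ * crs e b1 0
    simp only [crs_0]; ring
  · show _ * v 1 = _ * crs b1 b2 1 + _ * crs b2 e 1 + _ * crs e b1 1
    simp only [crs_1]; ring
  · show _ * v 2 = _ * crs b1 b2 2 + _ * crs b2 e 2 + _ * crs e b1 2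
    simp only [crs_2]; ring

lemma det3_crs (e a b v : E3) : det3 (crs e a) (crs e b) v = det3 a b e * ⟪e, v⟫ := by
  simp only [in3, det3, crs_0, crs_1, crs_2]; ring

lemma in_crs (e a b : E3) : ⟪crs e a, b⟫ = det3 a b e := by
  simp only [in3, det3, crs_0, crs_1, crs_2]; ring

namespace Link

variable {m : ℕ} {α s D : ℝ} {β : ℕ → ℝ} {e : E3} {b g : ℕ → E3}

lemma gdiff (L : Link m α s D β e b g) (hs : s = 1) (k : ℕ) :
    g (k + 1) - g k = sdif α D β b g k • crs e (b (k + 1)) := by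
  have h := cramer3 (g (k + 1) - g k) e (b (k + 1)) (b (k + 2))
  have h0 : det3 (b (k + 1)) (b (k + 2)) e = 1 := by rw [L.det (k + 1), hs]
  have h1 : ⟪g (k + 1) - g k, e⟫ = 0 := by rw [inner_sub_left, L.ge, L.ge, sub_self]
  have h2 : ⟪g (k + 1) - g k, b (k + 1)⟫ = 0 := by rw [inner_sub_left, L.gb, sub_self]
  have h3 : ⟪g (k + 1) - g k, b (k + 2)⟫ = sdif α D β b g k := by
    have e1 : b (k + 2) = α • b (k + 1) + β (k + 1) • e - b k := by
      rw [← L.rel k]; abel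
    have e2 : ⟪g k, b (k + 2)⟫ = α * ⟪g (k + 1), b (k + 1)⟫ + β (k + 1) * D - ⟪g k, b k⟫ := by
      rw [e1, inner_sub_right, inner_add_right, inner_smul_right, inner_smul_right, L.ge, L.gb]
    have e3 : ⟪g (k + 1), b (k + 2)⟫ = ⟪g (k + 2), b (k + 2)⟫ := (L.gb (k + 1)).symm
    rw [inner_sub_left, e2, e3, sdif]; ring
  rw [h0, h1, h2, h3, one_smul, zero_smul, zero_smul, zero_add, zero_add] at h
  exact h

lemma m_pos (L : Link m α s D β e b g) : 0 < m := by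
  rcases L.type with h | h <;> omega

lemma m_le (L : Link m α s D β e b g) : m ≤ 6 := by
  rcases L.type with h | h <;> omega

lemma mod_g (L : Link m α s D β e b g) (k : ℕ) : g (k % m) = g k := by
  conv_rhs => rw [← Nat.mod_add_div k m]
  generalize k / m = j
  induction j with
  | zero => simp
  | succ j ih => rw [Nat.mul_succ, ← Nat.add_assoc, L.g_per, ← ih]

lemma bound (L : Link m α s D β e b g) (hs : s = 1) (k : ℕ) :
    ‖g k - g 0‖ ^ 2 ≤ 12 * ∑ j ∈ range m, sdif α D β b g j ^ 2 := by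
  rw [← L.mod_g k]
  have hk : k % m < m := Nat.mod_lt _ L.m_pos
  generalize k % m = k at hk
  have h1 : ∀ k, ‖g k - g 0‖ ≤ ∑ j ∈ range k, sqrt 2 * |sdif α D β b g j| := by
    intro k
    induction k with
    | zero => simp
    | succ k ih =>
      rw [sum_range_succ]
      have : g (k + 1) - g 0 = (g k - g 0) + (g (k + 1) - g k) := by abel
      rw [this]
      refine (norm_add_le _ _).trans (add_le_add ih ?_)
      rw [L.gdiff hs k, norm_smul, Real.norm_eq_abs, mul_comm]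
      refine mul_le_mul_of_nonneg_right ?_ (abs_nonneg _)
      exact Real.le_sqrt_of_sq_le (L.crs2 (k + 1))
  have h2 : ∑ j ∈ range k, sqrt 2 * |sdif α D β b g j|
      ≤ ∑ j ∈ range m, sqrt 2 * |sdif α D β b g j| := by
    refine sum_le_sum_of_subset_of_nonneg (range_subset_range.2 hk.le) (fun j _ _ => by positivity)
  have h3 : ‖g k - g 0‖ ^ 2 ≤ (∑ j ∈ range m, sqrt 2 * |sdif α D β b g j|) ^ 2 :=
    pow_le_pow_left₀ (norm_nonneg _) ((h1 k).trans h2) 2
  have h4 := sq_sum_le_card_mul_sum_sq (s := range m) (f := fun j => sqrt 2 * |sdif α D β b g j|)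
  have h5 : ∑ j ∈ range m, (sqrt 2 * |sdif α D β b g j|) ^ 2
      = 2 * ∑ j ∈ range m, sdif α D β b g j ^ 2 := by
    rw [mul_sum]
    refine sum_congr rfl (fun j _ => ?_)
    rw [mul_pow, sq_sqrt (by norm_num), sq_abs]
  rw [h5, card_range] at h4
  have h6 : 0 ≤ ∑ j ∈ range m, sdif α D β b g j ^ 2 := sum_nonneg (fun j _ => sq_nonneg _)
  have h7 : (m : ℝ) ≤ 6 := by exact_mod_cast L.m_le
  have h8 : (m : ℝ) * (2 * ∑ j ∈ range m, sdif α D β b g j ^ 2)
      ≤ 6 * (2 * ∑ j ∈ range m, sdif α D β b g j ^ 2) :=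
    mul_le_mul_of_nonneg_right h7 (by positivity)
  linarith

lemma det3_add_right (x y z v : E3) : det3 x (y + z) v = det3 x y v + det3 x z v := by
  simp only [det3, PiLp.add_apply]; ring

/-- the signed area for the hexagon -/
lemma area6 (L : Link 6 1 1 D β e b g) : ∃ σ : ℝ,
    (∀ v, ∑ k ∈ range 6, det3 (g k) (g (k + 1)) v = σ * ⟪e, v⟫) ∧
    -σ ≤ (1 / 2) * ∑ k ∈ range 6, sdif 1 D β b g k ^ 2 := by
  have hd : ∀ k, g (k + 1) = g k + sdif 1 D β b g k • crs e (b (k + 1)) := by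
    intro k; rw [← L.gdiff rfl k]; abel
  have hrel : ∀ k, crs e (b (k + 2)) = crs e (b (k + 1)) - crs e (b k) := by
    intro k
    have h := L.rel k
    have h' : b (k + 2) = b (k + 1) - b k + β (k + 1) • e := by
      have : b (k + 2) = (b k + b (k + 2)) - b k := by abel
      rw [this, h, one_smul]; abel
    rw [h']
    ext i
    fin_cases i
    · show crs e _ 0 = crs e (b (k + 1)) 0 - crs e (b k) 0
      simp only [crs_0, PiLp.add_apply, PiLp.sub_apply, PiLp.smul_apply, smul_eq_mul]; ring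
    · show crs e _ 1 = crs e (b (k + 1)) 1 - crs e (b k) 1
      simp only [crs_1, PiLp.add_apply, PiLp.sub_apply, PiLp.smul_apply, smul_eq_mul]; ring
    · show crs e _ 2 = crs e (b (k + 1)) 2 - crs e (b k) 2
      simp only [crs_2, PiLp.add_apply, PiLp.sub_apply, PiLp.smul_apply, smul_eq_mul]; ring
  set μ := sdif 1 D β b g with hμ
  set u1 := crs e (b 1) with hu1
  set u2 := crs e (b 2) with hu2
  have hu3 : crs e (b 3) = u2 - u1 := hrel 1
  have hu4 : crs e (b 4) = -u1 := by rw [show (4 : ℕ) = 2 + 2 from rfl, hrel 2, hu3]; abel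
  have hu5 : crs e (b 5) = -u2 := by
    rw [show (5 : ℕ) = 3 + 2 from rfl, hrel 3, hu4, hu3]; abel
  have hu6 : crs e (b 6) = u1 - u2 := by
    rw [show (6 : ℕ) = 4 + 2 from rfl, hrel 4, hu5, hu4]; abel
  have g1 : g 1 = g 0 + μ 0 • u1 := hd 0
  have g2 : g 2 = g 0 + μ 0 • u1 + μ 1 • u2 := by rw [show g 2 = _ from hd 1, g1]
  have g3 : g 3 = g 0 + μ 0 • u1 + μ 1 • u2 + μ 2 • (u2 - u1) := by
    rw [show g 3 = _ from hd 2, g2, hu3]
  have g4 : g 4 = g 0 + μ 0 • u1 + μ 1 • u2 + μ 2 • (u2 - u1) + μ 3 • (-u1) := by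
    rw [show g 4 = _ from hd 3, g3, hu4]
  have g5 : g 5 = g 0 + μ 0 • u1 + μ 1 • u2 + μ 2 • (u2 - u1) + μ 3 • (-u1) + μ 4 • (-u2) := by
    rw [show g 5 = _ from hd 4, g4, hu5]
  have g6 : g 6 = g 0 + μ 0 • u1 + μ 1 • u2 + μ 2 • (u2 - u1) + μ 3 • (-u1) + μ 4 • (-u2)
      + μ 5 • (u1 - u2) := by
    rw [show g 6 = _ from hd 5, g5, hu6]
  have hcl : g 6 = g 0 := L.g_per 0
  have hz : (μ 0 - μ 2 - μ 3 + μ 5) • u1 + (μ 1 + μ 2 - μ 4 - μ 5) • u2 = 0 := by
    rw [hcl] at g6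
    have : g 0 + μ 0 • u1 + μ 1 • u2 + μ 2 • (u2 - u1) + μ 3 • (-u1) + μ 4 • (-u2)
      + μ 5 • (u1 - u2) - g 0 = 0 := by rw [← g6]; abel
    rw [← this]
    module
  have hdet : det3 (b 1) (b 2) e = 1 := L.det 1
  have hc1 : μ 0 - μ 2 - μ 3 + μ 5 = 0 := by
    have h := congrArg (fun x => ⟪x, b 2⟫) hz
    simp only [inner_add_left, inner_smul_left, inner_zero_left, hu1, hu2, in_crs, conj_trivial,
      RCLike.conj_to_real] at h
    have h22 : det3 (b 2) (b 2) e = 0 := by simp only [det3]; ring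
    rw [hdet, h22] at h
    linarith
  have hc2 : μ 1 + μ 2 - μ 4 - μ 5 = 0 := by
    have h := congrArg (fun x => ⟪x, b 1⟫) hz
    simp only [inner_add_left, inner_smul_left, inner_zero_left, hu1, hu2, in_crs, conj_trivial,
      RCLike.conj_to_real] at h
    have h11 : det3 (b 1) (b 1) e = 0 := by simp only [det3]; ring
    have h21 : det3 (b 2) (b 1) e = - det3 (b 1) (b 2) e := by simp only [det3]; ring
    rw [h21, hdet, h11] at h
    linarith
  have hcross : ∀ v, det3 u1 u2 v = ⟪e, v⟫ := by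
    intro v; rw [hu1, hu2, det3_crs, hdet, one_mul]
  refine ⟨μ 0 * μ 1 + μ 1 * μ 2 + μ 0 * μ 2 + μ 3 * μ 4 + μ 4 * μ 5 + μ 3 * μ 5, fun v => ?_, ?_⟩
  · rw [← hcross v]
    simp only [sum_range_succ, sum_range_zero, zero_add]
    rw [show (1 + 1 : ℕ) = 2 from rfl, show (2 + 1 : ℕ) = 3 from rfl, show (3 + 1 : ℕ) = 4 from rfl,
      show (4 + 1 : ℕ) = 5 from rfl, show (5 + 1 : ℕ) = 6 from rfl, hcl, g1, g2, g3, g4, g5]
    have e5 : μ 5 = μ 2 + μ 3 - μ 0 := by linarith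
    have e1 : μ 1 = μ 4 + μ 3 - μ 0 := by linarith
    simp only [det3, PiLp.add_apply, PiLp.smul_apply, PiLp.neg_apply, PiLp.sub_apply, smul_eq_mul]
    rw [e5, e1]
    ring
  · simp only [sum_range_succ, sum_range_zero, zero_add]
    nlinarith [sq_nonneg (μ 0 + μ 1 + μ 2), sq_nonneg (μ 3 + μ 4 + μ 5)]

/-- the signed area for the quadrilateral -/
lemma area4 (L : Link 4 0 1 D β e b g) : ∃ σ : ℝ,
    (∀ v, ∑ k ∈ range 4, det3 (g k) (g (k + 1)) v = σ * ⟪e, v⟫) ∧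
    -σ ≤ (1 / 2) * ∑ k ∈ range 4, sdif 0 D β b g k ^ 2 := by
  have hd : ∀ k, g (k + 1) = g k + sdif 0 D β b g k • crs e (b (k + 1)) := by
    intro k; rw [← L.gdiff rfl k]; abel
  have hrel : ∀ k, crs e (b (k + 2)) = - crs e (b k) := by
    intro k
    have h := L.rel k
    have h' : b (k + 2) = - b k + β (k + 1) • e := by
      have : b (k + 2) = (b k + b (k + 2)) - b k := by abel
      rw [this, h, zero_smul]; abel
    rw [h']
    ext i
    fin_cases i
    · show crs e _ 0 = - crs e (b k) 0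
      simp only [crs_0, PiLp.add_apply, PiLp.neg_apply, PiLp.smul_apply, smul_eq_mul]; ring
    · show crs e _ 1 = - crs e (b k) 1
      simp only [crs_1, PiLp.add_apply, PiLp.neg_apply, PiLp.smul_apply, smul_eq_mul]; ring
    · show crs e _ 2 = - crs e (b k) 2
      simp only [crs_2, PiLp.add_apply, PiLp.neg_apply, PiLp.smul_apply, smul_eq_mul]; ring
  set μ := sdif 0 D β b g with hμ
  set u1 := crs e (b 1) with hu1
  set u2 := crs e (b 2) with hu2
  have hu3 : crs e (b 3) = - u1 := hrel 1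
  have hu4 : crs e (b 4) = - u2 := hrel 2
  have g1 : g 1 = g 0 + μ 0 • u1 := hd 0
  have g2 : g 2 = g 0 + μ 0 • u1 + μ 1 • u2 := by rw [show g 2 = _ from hd 1, g1]
  have g3 : g 3 = g 0 + μ 0 • u1 + μ 1 • u2 + μ 2 • (-u1) := by
    rw [show g 3 = _ from hd 2, g2, hu3]
  have g4 : g 4 = g 0 + μ 0 • u1 + μ 1 • u2 + μ 2 • (-u1) + μ 3 • (-u2) := by
    rw [show g 4 = _ from hd 3, g3, hu4]
  have hcl : g 4 = g 0 := L.g_per 0
  have hz : (μ 0 - μ 2) • u1 + (μ 1 - μ 3) • u2 = 0 := by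
    rw [hcl] at g4
    have : g 0 + μ 0 • u1 + μ 1 • u2 + μ 2 • (-u1) + μ 3 • (-u2) - g 0 = 0 := by rw [← g4]; abel
    rw [← this]
    module
  have hdet : det3 (b 1) (b 2) e = 1 := L.det 1
  have hc1 : μ 0 - μ 2 = 0 := by
    have h := congrArg (fun x => ⟪x, b 2⟫) hz
    simp only [inner_add_left, inner_smul_left, inner_zero_left, hu1, hu2, in_crs, conj_trivial,
      RCLike.conj_to_real] at h
    have h22 : det3 (b 2) (b 2) e = 0 := by simp only [det3]; ring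
    rw [hdet, h22] at h
    linarith
  have hc2 : μ 1 - μ 3 = 0 := by
    have h := congrArg (fun x => ⟪x, b 1⟫) hz
    simp only [inner_add_left, inner_smul_left, inner_zero_left, hu1, hu2, in_crs, conj_trivial,
      RCLike.conj_to_real] at h
    have h11 : det3 (b 1) (b 1) e = 0 := by simp only [det3]; ring
    have h21 : det3 (b 2) (b 1) e = - det3 (b 1) (b 2) e := by simp only [det3]; ring
    rw [h21, hdet, h11] at h
    linarith
  have hcross : ∀ v, det3 u1 u2 v = ⟪e, v⟫ := by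
    intro v; rw [hu1, hu2, det3_crs, hdet, one_mul]
  refine ⟨2 * μ 0 * μ 1, fun v => ?_, ?_⟩
  · rw [← hcross v]
    simp only [sum_range_succ, sum_range_zero, zero_add]
    rw [show (1 + 1 : ℕ) = 2 from rfl, show (2 + 1 : ℕ) = 3 from rfl, show (3 + 1 : ℕ) = 4 from rfl,
      hcl, g1, g2, g3]
    have e2 : μ 2 = μ 0 := by linarith
    simp only [det3, PiLp.add_apply, PiLp.smul_apply, PiLp.neg_apply, smul_eq_mul]
    rw [e2]
    ring
  · simp only [sum_range_succ, sum_range_zero, zero_add]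
    have e2 : μ 2 = μ 0 := by linarith
    have e3 : μ 3 = μ 1 := by linarith
    rw [e2, e3]
    nlinarith [sq_nonneg (μ 0 + μ 1)]

lemma mod_b (L : Link m α s D β e b g) (k : ℕ) : b (k % m) = b k := by
  conv_rhs => rw [← Nat.mod_add_div k m]
  generalize k / m = j
  induction j with
  | zero => simp
  | succ j ih => rw [Nat.mul_succ, ← Nat.add_assoc, L.b_per, ← ih]

/-- winding number one -/
lemma winding (L : Link m α s D β e b g) : ∀ a : E3, ⟪e, a⟫ = 0 → ∀ (x : ℕ → ℝ) (N : ℕ → ℤ),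
      (∀ k, 0 ≤ (-1 : ℝ) ^ (N k) * ⟪b k, a⟫) →
      (∀ k, ⟪b k, a⟫ = 0 → 0 < (-1 : ℝ) ^ (N k) * x k) →
      (∀ k, N k ≤ N (k + 1) ∧ N (k + 1) ≤ N k + 1) →
      (∀ k, 0 < x k * ⟪b (k + 1), a⟫ - ⟪b k, a⟫ * x (k + 1)) → N m = N 0 + 2 := by
  intro a hea x N h1 h2 h3 h4
  have hrel : ∀ k, ⟪b k, a⟫ + ⟪b (k + 2), a⟫ = α * ⟪b (k + 1), a⟫ := by
    intro k
    have h := congrArg (fun v => ⟪v, a⟫) (L.rel k)
    simp only [inner_add_left, inner_smul_left, hea, conj_trivial, RCLike.conj_to_real] at h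
    linarith
  rcases L.type with ⟨hm, hα⟩ | ⟨hm, hα⟩
  · have h := wind6 x (fun k => ⟪b k, a⟫) N h1 h2 h3 h4
      (fun k => by have := hrel k; rw [hα] at this; show ⟪b (k + 1), a⟫ = _; linarith)
    have h0 := h 0
    have h3 := h 3
    rw [hm]
    simp only [zero_add] at h0
    rw [show (3 + 3 : ℕ) = 6 from rfl] at h3
    rw [h3, h0]; ring
  · have h := wind4 x (fun k => ⟪b k, a⟫) N h1 h2 h3 h4
      (fun k => by have := hrel k; rw [hα] at this; show ⟪b (k + 2), a⟫ = _; linarith)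
    have h0 := h 0
    have h2 := h 2
    rw [hm]
    simp only [zero_add] at h0
    rw [show (2 + 2 : ℕ) = 4 from rfl] at h2
    rw [h2, h0]; ring

/-- the excess bound, positive orientation -/
theorem exc_pos (L : Link m α 1 D β e b g) (hD : 0 < D) (n : E3) (ε : ℝ) (hn : ‖n‖ = 1)
    (hε : ∀ k, ‖g k - n‖ ≤ ε) (hε8 : ε ≤ 1 / 8) :
    ∑ k ∈ range m, InnerProductGeometry.angle (b k - (⟪g k, b k⟫ / D) • e)
        (b (k + 1) - (⟪g (k + 1), b (k + 1)⟫ / D) • e) - 2 * π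
      ≤ (|⟪e, n⟫| / 4 + 1000 * ε) * ∑ k ∈ range m, sdif α D β b g k ^ 2 := by
  have hσ : ∃ σ : ℝ, (∀ v, ∑ k ∈ range m, det3 (g k) (g (k + 1)) v = σ * ⟪e, v⟫) ∧
    -σ ≤ (1 / 2) * ∑ k ∈ range m, sdif α D β b g k ^ 2 := by
    rcases L.type with ⟨hm, hα⟩ | ⟨hm, hα⟩
    · subst hm; subst hα; exact L.area6
    · subst hm; subst hα; exact L.area4
  obtain ⟨σ, hσ1, hσ2⟩ := hσ
  have hmain := exc_core m L.m_le e n b g ε (12 * ∑ j ∈ range m, sdif α D β b g j ^ 2) σ D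
    (by simpa using L.b_per 0) (by simpa using L.g_per 0) hn hε hε8 (L.bound rfl) L.e2 L.ge hD L.gb
    (fun k => by rw [L.det]; norm_num) L.winding hσ1
  set Λ := ∑ k ∈ range m, sdif α D β b g k ^ 2 with hΛ
  have hΛ0 : 0 ≤ Λ := sum_nonneg (fun _ _ => sq_nonneg _)
  have hε0 : 0 ≤ ε := le_trans (norm_nonneg _) (hε 0)
  have h1 : max (-σ) 0 ≤ 1 / 2 * Λ := max_le hσ2 (by positivity)
  have h2 : max (-σ) 0 / 2 * (|⟪e, n⟫| + 4 * ε) ≤ (1 / 2 * Λ) / 2 * (|⟪e, n⟫| + 4 * ε) := by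
    apply mul_le_mul_of_nonneg_right (by linarith)
    have := abs_nonneg ⟪e, n⟫
    linarith
  have h3 : 0 ≤ ε * Λ := mul_nonneg hε0 hΛ0
  have h4 : (1 / 2 * Λ) / 2 * (|⟪e, n⟫| + 4 * ε) + 70 * ε * (12 * Λ)
      ≤ (|⟪e, n⟫| / 4 + 1000 * ε) * Λ := by nlinarith
  linarith

end Link

end Vale.Agent.P134.H16
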