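import Vale.Agent.P134.H16.Exc3

set_option linter.all false

/-! Angle excess at an edge: arbitrary orientation and sign of the slope. -/

namespace Vale.Agent.P134.H16

open Real Finset
open scoped RealInnerProductSpace

namespace Link

variable {m : ℕ} {α s D : ℝ} {β : ℕ → ℝ} {e : E3} {b g : ℕ → E3}

lemma neg_e (L : Link m α s D β e b g) : Link m α (-s) (-D) (fun k => -β k) (-e) b g where
  type := L.type
  b_per := L.b_per
  g_per := L.g_per
  β_per := fun k => by rw [L.β_per]
  rel := fun k => by rw [L.rel]; module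
  det := fun k => by
    rw [← L.det k]; simp only [det3, PiLp.neg_apply]; ring
  ge := fun k => by rw [inner_neg_right, L.ge]
  gb := L.gb
  crs2 := fun k => by
    have h : crs (-e) (b k) = - crs e (b k) := by
      ext i
      fin_cases i
      · show crs (-e) (b k) 0 = - crs e (b k) 0
        simp only [crs_0, PiLp.neg_apply]; ring
      · show crs (-e) (b k) 1 = - crs e (b k) 1
        simp only [crs_1, PiLp.neg_apply]; ring
      · show crs (-e) (b k) 2 = - crs e (b k) 2
        simp only [crs_2, PiLp.neg_apply]; ring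
    rw [h, norm_neg]; exact L.crs2 k
  e2 := by rw [norm_neg]; exact L.e2

lemma neg_g (L : Link m α s D β e b g) : Link m α s (-D) β e b (fun k => -g k) where
  type := L.type
  b_per := L.b_per
  g_per := fun k => by rw [L.g_per]
  β_per := L.β_per
  rel := L.rel
  det := L.det
  ge := fun k => by rw [inner_neg_left, L.ge]
  gb := fun k => by rw [inner_neg_left, inner_neg_left, L.gb]
  crs2 := L.crs2
  e2 := L.e2

/-- the excess bound with `s = 1`, `D ≠ 0` -/
theorem exc_one (L : Link m α 1 D β e b g) (hD : D ≠ 0) (n : E3) (ε : ℝ) (hn : ‖n‖ = 1)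
    (hε : ∀ k, ‖g k - n‖ ≤ ε) (hε8 : ε ≤ 1 / 8) :
    ∑ k ∈ range m, InnerProductGeometry.angle (b k - (⟪g k, b k⟫ / D) • e)
        (b (k + 1) - (⟪g (k + 1), b (k + 1)⟫ / D) • e) - 2 * π
      ≤ (|⟪e, n⟫| / 4 + 1000 * ε) * ∑ k ∈ range m, sdif α D β b g k ^ 2 := by
  rcases lt_or_gt_of_ne hD with h | h
  · have h1 := L.neg_g.exc_pos (by linarith) (-n) ε (by rw [norm_neg]; exact hn)
      (fun k => by rw [show -g k - -n = -(g k - n) by abel, norm_neg]; exact hε k) hε8
    rw [inner_neg_right, abs_neg] at h1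
    have h2 : ∀ k, sdif α (-D) β b (fun k => -g k) k ^ 2 = sdif α D β b g k ^ 2 := by
      intro k
      have : sdif α (-D) β b (fun k => -g k) k = - sdif α D β b g k := by
        simp only [sdif, inner_neg_left]; ring
      rw [this]; ring
    rw [sum_congr rfl (fun k _ => h2 k)] at h1
    refine le_trans (le_of_eq ?_) h1
    congr 1
    refine sum_congr rfl (fun k _ => ?_)
    simp only [inner_neg_left, neg_div_neg_eq]
  · exact L.exc_pos h n ε hn hε hε8

/-- the excess bound -/
theorem exc (L : Link m α s D β e b g) (hs : s = 1 ∨ s = -1) (hD : D ≠ 0) (n : E3) (ε : ℝ)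
    (hn : ‖n‖ = 1) (hε : ∀ k, ‖g k - n‖ ≤ ε) (hε8 : ε ≤ 1 / 8) :
    ∑ k ∈ range m, InnerProductGeometry.angle (b k - (⟪g k, b k⟫ / D) • e)
        (b (k + 1) - (⟪g (k + 1), b (k + 1)⟫ / D) • e) - 2 * π
      ≤ (|⟪e, n⟫| / 4 + 1000 * ε) * ∑ k ∈ range m, sdif α D β b g k ^ 2 := by
  rcases hs with h | h
  · subst h; exact L.exc_one hD n ε hn hε hε8
  · subst h
    have L' := L.neg_e
    rw [neg_neg] at L'
    have h1 := L'.exc_one (neg_ne_zero.2 hD) n ε hn hε hε8
    rw [inner_neg_left, abs_neg] at h1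
    have h2 : ∀ k, sdif α (-D) (fun k => -β k) b g k ^ 2 = sdif α D β b g k ^ 2 := by
      intro k
      have : sdif α (-D) (fun k => -β k) b g k = sdif α D β b g k := by
        simp only [sdif]; ring
      rw [this]
    rw [sum_congr rfl (fun k _ => h2 k)] at h1
    refine le_trans (le_of_eq ?_) h1
    congr 1
    refine sum_congr rfl (fun k _ => ?_)
    rw [div_neg, div_neg]
    congr 2 <;> module

end Link

end Vale.Agent.P134.H16
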