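import Vale.Agent.P134.H16.Ang

set_option linter.all false

/-! Cyclic fans in azimuthal coordinates: lifts of the azimuths, winding number one for the
link patterns of the Kuhn triangulation, telescoping of the angle sum. -/

namespace Vale.Agent.P134.H16

open Real Finset

/-- telescoping of the quadratic bound round a closed fan -/
lemma fan_sum (m : ℕ) (p q ω : ℕ → ℝ) (η : ℝ) (hη : ∀ k, p k ^ 2 + q k ^ 2 ≤ η)
    (hω : ∀ k < m, ω k ≤ ω (k + 1)) (hend : ω m = ω 0 + 2 * π) (hp : p m = p 0) (hq : q m = q 0)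
    (hmatch : ∀ k < m, (p (k + 1) - p k) * cos (ω (k + 1)) + (q (k + 1) - q k) * sin (ω (k + 1)) = 0) :
    ∑ k ∈ range m, Af (p k) (q k) (ω k) (ω (k + 1))
      ≤ 2 * π * (1 + η ^ 2 * (1 + η) / 2)
        - (∑ k ∈ range m, (p k * q (k + 1) - q k * p (k + 1))) / 2 := by
  have hη0 : 0 ≤ η := le_trans (by positivity) (hη 0)
  set Z : ℕ → ℝ → ℝ := fun k w => zf (p k) (q k) w * zd (p k) (q k) w with hZ
  have h1 : ∀ k ∈ range m, Af (p k) (q k) (ω k) (ω (k + 1))
      ≤ (ω (k + 1) - ω k) * (1 + η ^ 2 * (1 + η) / 2)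
        + ((Z (k + 1) (ω (k + 1)) - Z k (ω k)) - (p k * q (k + 1) - q k * p (k + 1))) / 2 := by
    intro k hk
    have hk' := mem_range.1 hk
    have h2 := Af_le (p k) (q k) (hω k hk')
    have hx0 : 0 ≤ p k ^ 2 + q k ^ 2 := by positivity
    have h3 : (p k ^ 2 + q k ^ 2) ^ 2 * (1 + (p k ^ 2 + q k ^ 2)) / 2 ≤ η ^ 2 * (1 + η) / 2 := by
      have := hη k
      gcongr
    have h4 : (ω (k + 1) - ω k) * (1 + (p k ^ 2 + q k ^ 2) ^ 2 * (1 + (p k ^ 2 + q k ^ 2)) / 2)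
        ≤ (ω (k + 1) - ω k) * (1 + η ^ 2 * (1 + η) / 2) := by
      apply mul_le_mul_of_nonneg_left (by linarith)
      linarith [hω k hk']
    have h5 : Z k (ω (k + 1)) = Z (k + 1) (ω (k + 1)) - (p k * q (k + 1) - q k * p (k + 1)) := by
      have hm := hmatch k hk'
      have hcs := sin_sq_add_cos_sq (ω (k + 1))
      simp only [hZ, zf, zd]
      set c := cos (ω (k + 1))
      set s := sin (ω (k + 1))
      linear_combination (-(p k * q (k + 1) - q k * p (k + 1))) * hcs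
        + ((p k * s - q k * c) + (p (k + 1) * s - q (k + 1) * c)) * hm
    have h6 : Z k (ω (k + 1)) - Z k (ω k) = (Z (k + 1) (ω (k + 1)) - Z k (ω k))
      - (p k * q (k + 1) - q k * p (k + 1)) := by rw [h5]; ring
    calc Af (p k) (q k) (ω k) (ω (k + 1)) ≤ _ := h2
      _ ≤ _ := by
        have : zf (p k) (q k) (ω (k + 1)) * zd (p k) (q k) (ω (k + 1))
          - zf (p k) (q k) (ω k) * zd (p k) (q k) (ω k) = Z k (ω (k + 1)) - Z k (ω k) := rfl
        rw [this, h6]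
        linarith
  refine (sum_le_sum h1).trans (le_of_eq ?_)
  have h7 : ∑ k ∈ range m, (Z (k + 1) (ω (k + 1)) - Z k (ω k)) = 0 := by
    rw [sum_range_sub (fun k => Z k (ω k))]
    simp only [hZ, hend, hp, hq, zf, zd, cos_add_two_pi, sin_add_two_pi]
    ring
  have h8 : ∑ k ∈ range m, (ω (k + 1) - ω k) = 2 * π := by
    rw [sum_range_sub, hend]; ring
  rw [sum_add_distrib, ← sum_mul, h8, ← sum_div, sum_sub_distrib, h7]
  ring

/-- one sector in coordinates -/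
lemma sector_arccos (p q : ℝ) {a b ra rb : ℝ} (hra : 0 < ra) (hrb : 0 < rb) (h : a ≤ b)
    (hb : b ≤ a + π) :
    arccos (((ra * cos a) * (rb * cos b) + (ra * sin a) * (rb * sin b)
        + (ra * zf p q a) * (rb * zf p q b)) /
      (sqrt ((ra * cos a) ^ 2 + (ra * sin a) ^ 2 + (ra * zf p q a) ^ 2)
        * sqrt ((rb * cos b) ^ 2 + (rb * sin b) ^ 2 + (rb * zf p q b) ^ 2))) = Af p q a b := by
  have e1 : ∀ r c, 0 < r → sqrt ((r * cos c) ^ 2 + (r * sin c) ^ 2 + (r * zf p q c) ^ 2)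
      = r * sqrt (1 + zf p q c ^ 2) := by
    intro r c hr
    have : (r * cos c) ^ 2 + (r * sin c) ^ 2 + (r * zf p q c) ^ 2 = r ^ 2 * (1 + zf p q c ^ 2) := by
      have := sin_sq_add_cos_sq c
      linear_combination (r ^ 2) * this
    rw [this, sqrt_mul (by positivity), sqrt_sq hr.le]
  rw [e1 ra a hra, e1 rb b hrb]
  have h2 : (ra * cos a) * (rb * cos b) + (ra * sin a) * (rb * sin b)
        + (ra * zf p q a) * (rb * zf p q b) = (ra * rb) * (cos (b - a) + zf p q a * zf p q b) := by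
    rw [cos_sub]; ring
  rw [h2, show ra * sqrt (1 + zf p q a ^ 2) * (rb * sqrt (1 + zf p q b ^ 2))
    = (ra * rb) * (sqrt (1 + zf p q a ^ 2) * sqrt (1 + zf p q b ^ 2)) by ring,
    mul_div_mul_left _ _ (mul_pos hra hrb).ne', arccos_formula p q h hb]

/-- the next azimuth -/
lemma lift_step {x y x' y' a : ℝ} (hR : 0 < sqrt (x ^ 2 + y ^ 2))
    (hx : x = sqrt (x ^ 2 + y ^ 2) * cos a) (hy : y = sqrt (x ^ 2 + y ^ 2) * sin a)
    (hc : 0 < x * y' - y * x') :
    0 < sqrt (x' ^ 2 + y' ^ 2) ∧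
    0 < arccos ((x * x' + y * y') / (sqrt (x ^ 2 + y ^ 2) * sqrt (x' ^ 2 + y' ^ 2))) ∧
    arccos ((x * x' + y * y') / (sqrt (x ^ 2 + y ^ 2) * sqrt (x' ^ 2 + y' ^ 2))) < π ∧
    x' = sqrt (x' ^ 2 + y' ^ 2) * cos (a + arccos ((x * x' + y * y') /
      (sqrt (x ^ 2 + y ^ 2) * sqrt (x' ^ 2 + y' ^ 2)))) ∧
    y' = sqrt (x' ^ 2 + y' ^ 2) * sin (a + arccos ((x * x' + y * y') /
      (sqrt (x ^ 2 + y ^ 2) * sqrt (x' ^ 2 + y' ^ 2)))) := by
  have hR' : 0 < sqrt (x' ^ 2 + y' ^ 2) := by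
    apply sqrt_pos.2
    rcases (lt_or_eq_of_le (show 0 ≤ x' ^ 2 + y' ^ 2 by positivity)) with h | h
    · exact h
    · exfalso
      have h1 : x' = 0 := by nlinarith [sq_nonneg x', sq_nonneg y']
      have h2 : y' = 0 := by nlinarith [sq_nonneg x', sq_nonneg y']
      rw [h1, h2] at hc; simp at hc
  have hRR : sqrt (x ^ 2 + y ^ 2) ^ 2 = x ^ 2 + y ^ 2 := sq_sqrt (by positivity)
  have hRR' : sqrt (x' ^ 2 + y' ^ 2) ^ 2 = x' ^ 2 + y' ^ 2 := sq_sqrt (by positivity)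
  set R := sqrt (x ^ 2 + y ^ 2)
  set R' := sqrt (x' ^ 2 + y' ^ 2)
  have hP : 0 < R * R' := mul_pos hR hR'
  set c := (x * x' + y * y') / (R * R') with hcdef
  set s := (x * y' - y * x') / (R * R') with hsdef
  have hs : 0 < s := div_pos hc hP
  have hcs : c ^ 2 + s ^ 2 = 1 := by
    rw [hcdef, hsdef, div_pow, div_pow, ← add_div, div_eq_one_iff_eq (by positivity)]
    rw [mul_pow, hRR, hRR']; ring
  have hc1 : -1 < c := by nlinarith
  have hc2 : c < 1 := by nlinarith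
  have hcos : cos (arccos c) = c := cos_arccos hc1.le hc2.le
  have hsin : sin (arccos c) = s := by
    rw [sin_arccos, show 1 - c ^ 2 = s ^ 2 by linarith, sqrt_sq hs.le]
  have hcR : c * (R * R') = x * x' + y * y' := by rw [hcdef]; field_simp
  have hsR : s * (R * R') = x * y' - y * x' := by rw [hsdef]; field_simp
  refine ⟨hR', arccos_pos.2 hc2, ?_, ?_, ?_⟩
  · have := arccos_le_pi c
    rcases lt_or_eq_of_le this with h | h
    · exact h
    · exfalso
      have := arccos_eq_pi.1 h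
      linarith
  · rw [cos_add, hcos, hsin]
    have : (R ^ 2) * x' = (R ^ 2) * (R' * (cos a * c - sin a * s)) := by
      have e : (R ^ 2) * (R' * (cos a * c - sin a * s))
        = (R * cos a) * (c * (R * R')) - (R * sin a) * (s * (R * R')) := by ring
      rw [e, hcR, hsR, ← hx, ← hy, hRR]; ring
    exact mul_left_cancel₀ (by positivity) this
  · rw [sin_add, hcos, hsin]
    have : (R ^ 2) * y' = (R ^ 2) * (R' * (sin a * c + cos a * s)) := by
      have e : (R ^ 2) * (R' * (sin a * c + cos a * s))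
        = (R * sin a) * (c * (R * R')) + (R * cos a) * (s * (R * R')) := by ring
      rw [e, hcR, hsR, ← hx, ← hy, hRR]; ring
    exact mul_left_cancel₀ (by positivity) this

/-- existence of the lifts of the azimuths -/
lemma exists_lift (x y : ℕ → ℝ) (hc : ∀ k, 0 < x k * y (k + 1) - y k * x (k + 1)) :
    ∃ ω : ℕ → ℝ, (∀ k, ω k < ω (k + 1) ∧ ω (k + 1) < ω k + π) ∧
      ∀ k, 0 < sqrt (x k ^ 2 + y k ^ 2) ∧ x k = sqrt (x k ^ 2 + y k ^ 2) * cos (ω k) ∧
        y k = sqrt (x k ^ 2 + y k ^ 2) * sin (ω k) := by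
  have h0 : ∃ a, 0 < sqrt (x 0 ^ 2 + y 0 ^ 2) ∧ x 0 = sqrt (x 0 ^ 2 + y 0 ^ 2) * cos a ∧
        y 0 = sqrt (x 0 ^ 2 + y 0 ^ 2) * sin a := by
    refine ⟨Complex.arg ⟨x 0, y 0⟩, ?_, ?_, ?_⟩
    · apply sqrt_pos.2
      rcases (lt_or_eq_of_le (show 0 ≤ x 0 ^ 2 + y 0 ^ 2 by positivity)) with h | h
      · exact h
      · exfalso
        have h1 : x 0 = 0 := by nlinarith [sq_nonneg (x 0), sq_nonneg (y 0)]
        have h2 : y 0 = 0 := by nlinarith [sq_nonneg (x 0), sq_nonneg (y 0)]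
        have := hc 0
        rw [h1, h2] at this; simp at this
    · have h := Complex.norm_mul_cos_arg ⟨x 0, y 0⟩
      have hn : ‖(⟨x 0, y 0⟩ : ℂ)‖ = sqrt (x 0 ^ 2 + y 0 ^ 2) := by
        rw [Complex.norm_def, Complex.normSq_mk]; ring_nf
      rw [hn] at h; exact h.symm
    · have h := Complex.norm_mul_sin_arg ⟨x 0, y 0⟩
      have hn : ‖(⟨x 0, y 0⟩ : ℂ)‖ = sqrt (x 0 ^ 2 + y 0 ^ 2) := by
        rw [Complex.norm_def, Complex.normSq_mk]; ring_nf
      rw [hn] at h; exact h.symm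
  obtain ⟨a, ha⟩ := h0
  set β : ℕ → ℝ := fun k => arccos ((x k * x (k + 1) + y k * y (k + 1)) /
    (sqrt (x k ^ 2 + y k ^ 2) * sqrt (x (k + 1) ^ 2 + y (k + 1) ^ 2))) with hβ
  set ω : ℕ → ℝ := fun k => a + ∑ j ∈ range k, β j with hω
  have hsucc : ∀ k, ω (k + 1) = ω k + β k := by
    intro k; simp only [hω]; rw [sum_range_succ]; ring
  have key : ∀ k, 0 < sqrt (x k ^ 2 + y k ^ 2) ∧ x k = sqrt (x k ^ 2 + y k ^ 2) * cos (ω k) ∧
        y k = sqrt (x k ^ 2 + y k ^ 2) * sin (ω k) := by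
    intro k
    induction k with
    | zero => simpa [hω] using ha
    | succ k ih =>
      obtain ⟨h1, h2, h3, h4, h5⟩ := lift_step ih.1 ih.2.1 ih.2.2 (hc k)
      rw [hsucc]
      exact ⟨h1, h4, h5⟩
  refine ⟨ω, fun k => ?_, key⟩
  obtain ⟨h1, h2, h3, h4, h5⟩ := lift_step (key k).1 (key k).2.1 (key k).2.2 (hc k)
  rw [hsucc]
  exact ⟨lt_add_of_pos_right _ h2, add_lt_add_of_le_of_lt le_rfl h3⟩

/-- sign of `sin`, `cos` from the number of half turns -/
lemma floor_facts (w : ℝ) :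
    0 ≤ (-1 : ℝ) ^ ⌊w / π⌋ * sin w ∧ (sin w = 0 → 0 < (-1 : ℝ) ^ ⌊w / π⌋ * cos w) := by
  have hpi := pi_pos
  set N := ⌊w / π⌋ with hN
  have h1 : (N : ℝ) * π ≤ w := by
    have := Int.floor_le (w / π)
    rwa [le_div_iff₀ hpi] at this
  have h2 : w < (N + 1 : ℝ) * π := by
    have := Int.lt_floor_add_one (w / π)
    rwa [div_lt_iff₀ hpi] at this
  have hs : (-1 : ℝ) ^ N * sin w = sin (w - N * π) := (sin_sub_int_mul_pi w N).symm
  have hc : (-1 : ℝ) ^ N * cos w = cos (w - N * π) := (cos_sub_int_mul_pi w N).symm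
  refine ⟨?_, ?_⟩
  · rw [hs]
    exact sin_nonneg_of_nonneg_of_le_pi (by linarith) (by linarith)
  · intro h
    rw [hc]
    have h3 : sin (w - N * π) = 0 := by rw [← hs, h, mul_zero]
    have h4 : w - N * π = 0 := by
      by_contra hne
      have h5 : 0 < w - N * π := lt_of_le_of_ne (by linarith) (Ne.symm hne)
      have h6 : 0 < sin (w - N * π) := sin_pos_of_pos_of_lt_pi h5 (by linarith)
      linarith
    rw [h4, cos_zero]; norm_num

lemma floor_step {a b : ℝ} (h1 : a < b) (h2 : b < a + π) :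
    ⌊a / π⌋ ≤ ⌊b / π⌋ ∧ ⌊b / π⌋ ≤ ⌊a / π⌋ + 1 := by
  have hpi := pi_pos
  refine ⟨Int.floor_mono (by gcongr), ?_⟩
  have : b / π < a / π + 1 := by
    rw [div_lt_iff₀ hpi, add_mul, div_mul_cancel₀ _ hpi.ne']; linarith
  have h3 : (⌊b / π⌋ : ℝ) < ⌊a / π⌋ + 2 := by
    have := Int.floor_le (b / π)
    have := Int.lt_floor_add_one (a / π)
    linarith
  have h4 : ⌊b / π⌋ < ⌊a / π⌋ + 2 := by exact_mod_cast h3
  linarith

lemma neg_one_zpow_cases (N : ℤ) : ((-1 : ℝ) ^ N = 1 ∧ (-1 : ℝ) ^ (N + 1) = -1) ∨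
    ((-1 : ℝ) ^ N = -1 ∧ (-1 : ℝ) ^ (N + 1) = 1) := by
  rcases Int.even_or_odd N with h | h
  · left
    have h1 : (-1 : ℝ) ^ N = 1 := h.neg_one_zpow
    refine ⟨h1, ?_⟩
    rw [zpow_add₀ (by norm_num), h1]; norm_num
  · right
    have h1 : (-1 : ℝ) ^ N = -1 := h.neg_one_zpow
    refine ⟨h1, ?_⟩
    rw [zpow_add₀ (by norm_num), h1]; norm_num

/-- winding of the hexagonal link pattern -/
lemma wind6 (x y : ℕ → ℝ) (N : ℕ → ℤ) (h1 : ∀ k, 0 ≤ (-1 : ℝ) ^ (N k) * y k)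
    (h2 : ∀ k, y k = 0 → 0 < (-1 : ℝ) ^ (N k) * x k)
    (hstep : ∀ k, N k ≤ N (k + 1) ∧ N (k + 1) ≤ N k + 1)
    (hc : ∀ k, 0 < x k * y (k + 1) - y k * x (k + 1))
    (hy : ∀ k, y (k + 1) = y k + y (k + 2)) (k : ℕ) : N (k + 3) = N k + 1 := by
  have hy3 : y (k + 3) = - y k := by have := hy k; have := hy (k + 1); linarith
  have hy4 : y (k + 4) = - y (k + 1) := by have := hy (k + 1); have := hy (k + 2); linarith
  have hs0 := hstep k
  have hs1 := hstep (k + 1)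
  have hs2 := hstep (k + 2)
  have e1 : k + 1 + 1 = k + 2 := rfl
  have e2 : k + 2 + 1 = k + 3 := rfl
  rw [e1] at hs1
  rw [e2] at hs2
  -- sign antisymmetry
  have hanti : (-1 : ℝ) ^ (N (k + 3)) = - (-1 : ℝ) ^ (N k) := by
    have a0 := h1 k
    have a3 := h1 (k + 3)
    rw [hy3] at a3
    by_cases hy0 : y k = 0
    · have b0 := h2 k hy0
      have b3 := h2 (k + 3) (by rw [hy3, hy0]; simp)
      have c0 := hc k
      have c3 := hc (k + 3)
      rw [hy0] at c0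
      rw [show k + 3 + 1 = k + 4 from rfl, hy3, hy4, hy0] at c3
      rcases neg_one_zpow_cases (N k) with ⟨u, _⟩ | ⟨u, _⟩ <;>
      rcases neg_one_zpow_cases (N (k + 3)) with ⟨v, _⟩ | ⟨v, _⟩ <;>
      rw [u, v] <;> rw [u] at b0 <;> rw [v] at b3 <;> first | (norm_num; done) | (exfalso; nlinarith [mul_pos c0 b3, mul_pos c3 b0])
    · rcases neg_one_zpow_cases (N k) with ⟨u, _⟩ | ⟨u, _⟩ <;>
      rcases neg_one_zpow_cases (N (k + 3)) with ⟨v, _⟩ | ⟨v, _⟩ <;>
      rw [u, v] <;> rw [u] at a0 <;> rw [v] at a3 <;>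
      first | (norm_num; done) | (exfalso; apply hy0; linarith)
  have hle : N k ≤ N (k + 3) := by omega
  have hle3 : N (k + 3) ≤ N k + 3 := by omega
  have hcases : N (k + 3) = N k ∨ N (k + 3) = N k + 1 ∨ N (k + 3) = N k + 2 ∨ N (k + 3) = N k + 3 := by
    omega
  have hne : (-1 : ℝ) ^ (N k) ≠ 0 := zpow_ne_zero _ (by norm_num)
  rcases hcases with h | h | h | h
  · exfalso
    rw [h] at hanti
    apply hne; linarith
  · exact h
  · exfalso
    rw [h, zpow_add₀ (by norm_num)] at hanti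
    norm_num at hanti
    apply hne; linarith
  · exfalso
    have e1 : N (k + 1) = N k + 1 := by omega
    have e2 : N (k + 2) = N k + 2 := by omega
    have a0 := h1 k
    have a1 := h1 (k + 1)
    have a2 := h1 (k + 2)
    rw [e1, zpow_add₀ (by norm_num)] at a1
    rw [e2, zpow_add₀ (by norm_num)] at a2
    have hyy := hy k
    have c0 := hc k
    have c1 := hc (k + 1)
    norm_num at a1 a2
    rcases neg_one_zpow_cases (N k) with ⟨u, _⟩ | ⟨u, _⟩
    · rw [u] at a0 a1 a2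
      have y0 : y k = 0 := by linarith
      have y1 : y (k + 1) = 0 := by linarith
      rw [y0, y1] at c0; simp at c0
    · rw [u] at a0 a1 a2
      have y0 : y k = 0 := by linarith
      have y1 : y (k + 1) = 0 := by linarith
      rw [y0, y1] at c0; simp at c0

/-- winding of the quadrilateral link pattern -/
lemma wind4 (x y : ℕ → ℝ) (N : ℕ → ℤ) (h1 : ∀ k, 0 ≤ (-1 : ℝ) ^ (N k) * y k)
    (h2 : ∀ k, y k = 0 → 0 < (-1 : ℝ) ^ (N k) * x k)
    (hstep : ∀ k, N k ≤ N (k + 1) ∧ N (k + 1) ≤ N k + 1)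
    (hc : ∀ k, 0 < x k * y (k + 1) - y k * x (k + 1))
    (hy : ∀ k, y (k + 2) = - y k) (k : ℕ) : N (k + 2) = N k + 1 := by
  have hy2 := hy k
  have hy3 := hy (k + 1)
  rw [show k + 1 + 2 = k + 3 from rfl] at hy3
  have hs0 := hstep k
  have hs1 := hstep (k + 1)
  rw [show k + 1 + 1 = k + 2 from rfl] at hs1
  have hanti : (-1 : ℝ) ^ (N (k + 2)) = - (-1 : ℝ) ^ (N k) := by
    have a0 := h1 k
    have a3 := h1 (k + 2)
    rw [hy2] at a3
    by_cases hy0 : y k = 0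
    · have b0 := h2 k hy0
      have b3 := h2 (k + 2) (by rw [hy2, hy0]; simp)
      have c0 := hc k
      have c3 := hc (k + 2)
      rw [hy0] at c0
      rw [show k + 2 + 1 = k + 3 from rfl, hy2, hy3, hy0] at c3
      rcases neg_one_zpow_cases (N k) with ⟨u, _⟩ | ⟨u, _⟩ <;>
      rcases neg_one_zpow_cases (N (k + 2)) with ⟨v, _⟩ | ⟨v, _⟩ <;>
      rw [u, v] <;> rw [u] at b0 <;> rw [v] at b3 <;> first | (norm_num; done) | (exfalso; nlinarith [mul_pos c0 b3, mul_pos c3 b0])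
    · rcases neg_one_zpow_cases (N k) with ⟨u, _⟩ | ⟨u, _⟩ <;>
      rcases neg_one_zpow_cases (N (k + 2)) with ⟨v, _⟩ | ⟨v, _⟩ <;>
      rw [u, v] <;> rw [u] at a0 <;> rw [v] at a3 <;>
      first | (norm_num; done) | (exfalso; apply hy0; linarith)
  have hcases : N (k + 2) = N k ∨ N (k + 2) = N k + 1 ∨ N (k + 2) = N k + 2 := by omega
  have hne : (-1 : ℝ) ^ (N k) ≠ 0 := zpow_ne_zero _ (by norm_num)
  rcases hcases with h | h | h
  · exfalso
    rw [h] at hanti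
    apply hne; linarith
  · exact h
  · exfalso
    rw [h, zpow_add₀ (by norm_num)] at hanti
    norm_num at hanti
    apply hne; linarith

/-- from the number of half turns to the closing of the lift -/
lemma closing {w0 wm : ℝ} (hN : ⌊wm / π⌋ = ⌊w0 / π⌋ + 2) (hc : cos wm = cos w0)
    (hs : sin wm = sin w0) : wm = w0 + 2 * π := by
  have h1 := Real.Angle.cos_sin_inj hc hs
  rw [Real.Angle.angle_eq_iff_two_pi_dvd_sub] at h1
  obtain ⟨j, hj⟩ := h1
  have hpi := pi_pos.ne'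
  have h2 : wm / π = w0 / π + ((2 * j : ℤ) : ℝ) := by
    have : wm = w0 + 2 * π * j := by linarith
    rw [this, add_div]; push_cast; field_simp
  rw [h2, Int.floor_add_intCast] at hN
  have h3 : j = 1 := by omega
  rw [h3] at hj
  push_cast at hj
  linarith

end Vale.Agent.P134.H16
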