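import Mathlib

set_option linter.all false

/-! Numerical lemma for the mismatch block (MIS-NUM). -/

namespace Vale.Agent.P134.H16

open Real Filter Topology

theorem num : ∀ A : ℝ, 0 < A → ∃ W0 : ℝ, 1 ≤ W0 ∧ ∀ W : ℝ, W0 ≤ W →
    1 ≤ 60 * Real.log W ∧ 2 * (60 * Real.log W) + A ≤ W ∧
    A * (1 + 60 * Real.log W) ^ 8 * Real.exp (60 * Real.log W / 480) ≤ W ^ (1 / 4 : ℝ) ∧
    A * (1 + 60 * Real.log W) ^ 2 * W ^ 3 * Real.exp (-(60 * Real.log W)) ≤ W ^ (-50 : ℝ) := by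
  intro A hA
  have e1 : ∀ᶠ W : ℝ in atTop, 1 ≤ Real.log W := tendsto_log_atTop.eventually_ge_atTop 1
  have e2 : ∀ᶠ W : ℝ in atTop, (1 : ℝ) ≤ W := eventually_ge_atTop 1
  have e3 : ∀ᶠ W : ℝ in atTop, A ≤ W / 2 := by
    filter_upwards [eventually_ge_atTop (2 * A)] with W hW
    linarith
  have e4 : ∀ᶠ W : ℝ in atTop, Real.log W ≤ (1 / 240) * W := by
    have h := (isLittleO_log_id_atTop).def (show (0 : ℝ) < 1 / 240 by norm_num)
    filter_upwards [h, e1, e2] with W h1 h2 h3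
    rw [norm_of_nonneg (by linarith), id, norm_of_nonneg (by linarith)] at h1
    exact h1
  have e5 : ∀ᶠ W : ℝ in atTop, Real.log W ^ (8 : ℝ) ≤ 1 / (A * 61 ^ 8) * W ^ (1 / 8 : ℝ) := by
    have h := (isLittleO_log_rpow_rpow_atTop (8 : ℝ) (show (0 : ℝ) < 1 / 8 by norm_num)).def
      (show (0 : ℝ) < 1 / (A * 61 ^ 8) by positivity)
    filter_upwards [h, e1, e2] with W h1 h2 h3
    rw [norm_of_nonneg (by positivity), norm_of_nonneg (by positivity)] at h1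
    exact h1
  have e6 : ∀ᶠ W : ℝ in atTop, Real.log W ^ (2 : ℝ) ≤ 1 / (A * 61 ^ 2) * W ^ (7 : ℝ) := by
    have h := (isLittleO_log_rpow_rpow_atTop (2 : ℝ) (show (0 : ℝ) < 7 by norm_num)).def
      (show (0 : ℝ) < 1 / (A * 61 ^ 2) by positivity)
    filter_upwards [h, e1, e2] with W h1 h2 h3
    rw [norm_of_nonneg (by positivity), norm_of_nonneg (by positivity)] at h1
    exact h1
  obtain ⟨W1, hW1⟩ := eventually_atTop.1
    (e1.and (e2.and (e3.and (e4.and (e5.and e6)))))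
  refine ⟨max W1 1, le_max_right _ _, fun W hW => ?_⟩
  obtain ⟨h1, h2, h3, h4, h5, h6⟩ := hW1 W ((le_max_left _ _).trans hW)
  have hW0 : 0 < W := by linarith
  have hlog : (1 + 60 * Real.log W) ≤ 61 * Real.log W := by linarith
  have hl0 : 0 ≤ 1 + 60 * Real.log W := by linarith
  have h8 : Real.log W ^ (8 : ℝ) = Real.log W ^ 8 := by
    rw [← rpow_natCast]; norm_num
  have h22 : Real.log W ^ (2 : ℝ) = Real.log W ^ 2 := by
    rw [← rpow_natCast]; norm_num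
  rw [h8] at h5
  rw [h22] at h6
  refine ⟨by linarith, by linarith, ?_, ?_⟩
  · have hexp : Real.exp (60 * Real.log W / 480) = W ^ (1 / 8 : ℝ) := by
      rw [rpow_def_of_pos hW0]; congr 1; ring
    have hsum : W ^ (1 / 4 : ℝ) = W ^ (1 / 8 : ℝ) * W ^ (1 / 8 : ℝ) := by
      rw [← rpow_add hW0]; norm_num
    rw [hexp, hsum]
    apply mul_le_mul_of_nonneg_right _ (rpow_nonneg hW0.le _)
    calc A * (1 + 60 * Real.log W) ^ 8 ≤ A * (61 * Real.log W) ^ 8 := by gcongr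
      _ = (A * 61 ^ 8) * Real.log W ^ 8 := by ring
      _ ≤ (A * 61 ^ 8) * (1 / (A * 61 ^ 8) * W ^ (1 / 8 : ℝ)) := by gcongr
      _ = W ^ (1 / 8 : ℝ) := by field_simp
  · have hexp : Real.exp (-(60 * Real.log W)) = W ^ (-60 : ℝ) := by
      rw [rpow_def_of_pos hW0]; congr 1; ring
    have hsum : W ^ (-50 : ℝ) = W ^ (7 : ℝ) * W ^ (3 : ℝ) * W ^ (-60 : ℝ) := by
      rw [← rpow_add hW0, ← rpow_add hW0]; norm_num
    have h33 : W ^ (3 : ℝ) = W ^ 3 := by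
      rw [show (3 : ℝ) = ((3 : ℕ) : ℝ) by norm_num, rpow_natCast]
    rw [hexp, hsum, h33]
    apply mul_le_mul_of_nonneg_right _ (rpow_nonneg hW0.le _)
    apply mul_le_mul_of_nonneg_right _ (by positivity)
    calc A * (1 + 60 * Real.log W) ^ 2 ≤ A * (61 * Real.log W) ^ 2 := by gcongr
      _ = (A * 61 ^ 2) * Real.log W ^ 2 := by ring
      _ ≤ (A * 61 ^ 2) * (1 / (A * 61 ^ 2) * W ^ (7 : ℝ)) := by gcongr
      _ = W ^ (7 : ℝ) := by field_simp

end Vale.Agent.P134.H16
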